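import Vale.Agent.P352.R2.H716.Rs
import Vale.Agent.P352.H846.TvA

/-!
# The integrals of the trace over null hyperplanes do not depend on the hyperplane
-/

set_option linter.all false

noncomputable section

open MeasureTheory Filter Topology Set
open scoped ComplexConjugate ContDiff

namespace Vale.Agent.P352.R2.H716

open GF (Ix V Fn Fld bas eta o bar pd sim)
open H755 H496 H15 H246

variable {D : Type*} [NormedAddCommGroup D] [InnerProductSpace ℂ D]
variable {Q Q' : GF.Theory D} {T : Ix → Ix → GF.Fld D} {J : Ix → GF.Fld D}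
  {A : (V → V) → D → D} {K : V → D → D} {Th : V → D → D}

section

variable {χ : ℝ → ℝ} {X : Ix → Ix → GF.Fld D} {a b : V}
variable (hT : Q.IsStress T) (h : NullCharges Q T J A K) (hh : TrCh Q T Th) (ha : IsNull a)
  (hb : IsNull b) (hab : GF.mdot a b = 1) (hχ : Tst χ)
include hT h hh ha hb hab hχ

/-- the contracted slab at finite cutoff -/
lemma slab_con {κ : V → ℝ} {ψ : ℝ → ℝ} (hA : Adm a b κ ψ) (ε : ℝ) (j : ℤ) (u : ℝ) {R : ℝ}
    (hR : 1 ≤ R) (v w : D) :
    ∑ m, ∑ n, ((eta m * a m * (eta n * b n) : ℝ) : ℂ) * cmt Q T Th a b m n u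
      (sl χ a ε j (fun x => (ctf a b κ 0 ψ R x : ℂ))) v w =
    Complex.I * (inner ℂ (tc Q Th a b u w) (sm T (fun m n x => eta m * a m * (eta n * b n) *
      ctf a b κ 0 (fun s => χ (s / ε - j) * ψ s) R x) v) -
      inner ℂ w (sm T (fun m n x => eta m * a m * (eta n * b n) *
      ctf a b κ 0 (fun s => χ (s / ε - j) * ψ s) R x) (tc Q Th a b u v))) := by
  have e1 : sl χ a ε j (fun x => (ctf a b κ 0 ψ R x : ℂ)) = fun x =>
      ((ctf a b κ 0 (fun s => χ (s / ε - j) * ψ s) R x : ℝ) : ℂ) := by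
    funext x
    unfold sl ctf
    push_cast
    ring
  have hcd : ContDiff ℝ ∞ fun s : ℝ => χ (s / ε - j) :=
    hχ.1.comp ((contDiff_id.div_const ε).sub contDiff_const)
  have hψ' : Tst fun s => χ (s / ε - j) * ψ s := ⟨hcd.mul hA.2.2.2.2.2.1, hA.2.2.2.2.2.2.mul_left⟩
  have hA' : Adm a b κ (fun s => χ (s / ε - j) * ψ s) :=
    ⟨ha, hb, hab, hA.2.2.2.1, hA.2.2.2.2.1, hψ'⟩
  have ht := H755.ctf_tst hA' 0 hR
  have e2 : ∀ z, sm T (fun m n x => eta m * a m * (eta n * b n) *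
      ctf a b κ 0 (fun s => χ (s / ε - j) * ψ s) R x) z = ∑ m, ∑ n,
      ((eta m * a m * (eta n * b n) : ℝ) : ℂ) • T m n (fun x =>
        ((ctf a b κ 0 (fun s => χ (s / ε - j) * ψ s) R x : ℝ) : ℂ)) z := by
    intro z
    unfold sm
    refine Finset.sum_congr rfl fun m _ => Finset.sum_congr rfl fun n _ => ?_
    have h1 := Q.lin (T m n) (fun _ => 0) (fun x =>
      ((ctf a b κ 0 (fun s => χ (s / ε - j) * ψ s) R x : ℝ) : ℂ))
      ((eta m * a m * (eta n * b n) : ℝ) : ℂ) z (Q.bose_fld _ (hT.bose m n)) test_zero ht.isTest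
    rw [fld_z (Q.bose_fld _ (hT.bose m n)), zero_add] at h1
    rw [← h1]
    refine congrArg (fun f => T m n f z) (funext fun x => ?_)
    push_cast
    ring
  rw [e1, e2, e2]
  simp only [inner_sum, inner_smul_right]
  rw [← Finset.sum_sub_distrib, Finset.mul_sum]
  refine Finset.sum_congr rfl fun m _ => ?_
  rw [← Finset.sum_sub_distrib, Finset.mul_sum]
  refine Finset.sum_congr rfl fun n _ => ?_
  unfold cmt
  rw [th_symm hT hh ha hb hab]
  ring

/-- the averaged commutator with the momentum -/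
def gg (Q : GF.Theory D) (Th : V → D → D) (A : (V → V) → D → D) (a b : V) (v w : D) (u : ℝ) : ℂ :=
  Complex.I * (inner ℂ w (tc Q Th a b u (A (fun _ => b) v)) -
    inner ℂ (A (fun _ => b) w) (tc Q Th a b u v))

/-- the limit of the contracted slabs -/
lemma slab_lim {κ : V → ℝ} {ψ : ℝ → ℝ} (hA : Adm a b κ ψ) {ε : ℝ} (hε : 0 < ε) (v w : D) :
    Tendsto (fun R => ∑ m, ∑ n, ((eta m * a m * (eta n * b n) : ℝ) : ℂ) *
      slab Q T Th χ a b m n ε (fun x => (ctf a b κ 0 ψ R x : ℂ)) v w) atTop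
    (𝓝 (∑ᶠ j : ℤ, (∫ u, ((χ (u / ε - j) * ψ u : ℝ) : ℂ)) * gg Q Th A a b v w (j * ε))) := by
  obtain ⟨Kχ, Bχ, hK0, hB0, hK, hB⟩ := tst_bounds hχ
  obtain ⟨C, B', hC0, -, hC, -⟩ := tst_bounds hA.2.2.2.2.2
  obtain ⟨M, hM⟩ := exists_nat_gt (Kχ + C / ε)
  have hsupp : ∀ R x, ((ctf a b κ 0 ψ R x : ℝ) : ℂ) ≠ 0 → |GF.mdot a x| ≤ C := by
    intro R x hx
    by_contra hlt
    push Not at hlt
    refine hx ?_
    unfold ctf
    rw [hC _ hlt, mul_zero, Complex.ofReal_zero]
  -- the finite sum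
  have hfin : ∑ᶠ j : ℤ, (∫ u, ((χ (u / ε - j) * ψ u : ℝ) : ℂ)) * gg Q Th A a b v w (j * ε) =
      ∑ j ∈ Finset.Icc (-(M : ℤ)) M,
        (∫ u, ((χ (u / ε - j) * ψ u : ℝ) : ℂ)) * gg Q Th A a b v w (j * ε) := by
    refine finsum_eq_sum_of_support_subset _ fun j hj => ?_
    by_contra hn
    refine hj ?_
    show (∫ u, ((χ (u / ε - j) * ψ u : ℝ) : ℂ)) * gg Q Th A a b v w (j * ε) = 0
    have hz : ∀ u, χ (u / ε - j) * ψ u = 0 := by
      intro u
      by_cases hu : C < |u|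
      · rw [hC u hu, mul_zero]
      · push Not at hu
        rw [hK _ ?_, zero_mul]
        have h2 : |u / ε| ≤ C / ε := by
          rw [abs_div, abs_of_pos hε]
          exact div_le_div_of_nonneg_right hu hε.le
        have h3 : (M : ℝ) < |(j : ℝ)| := by
          by_contra hle
          push Not at hle
          have h4 := abs_le.1 hle
          refine hn (Finset.mem_Icc.2 ⟨by exact_mod_cast h4.1, by exact_mod_cast h4.2⟩)
        have h5 : |(j : ℝ)| - |u / ε| ≤ |u / ε - j| := by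
          rw [abs_sub_comm]
          exact abs_sub_abs_le_abs_sub _ _
        linarith
    simp only [hz]
    simp
  rw [hfin]
  have hlim : ∀ j : ℤ, Tendsto (fun R => ∑ m, ∑ n, ((eta m * a m * (eta n * b n) : ℝ) : ℂ) *
      cmt Q T Th a b m n (j * ε) (sl χ a ε j (fun x => (ctf a b κ 0 ψ R x : ℂ))) v w) atTop
      (𝓝 ((∫ u, ((χ (u / ε - j) * ψ u : ℝ) : ℂ)) * gg Q Th A a b v w (j * ε))) := by
    intro j
    have hcd : ContDiff ℝ ∞ fun s : ℝ => χ (s / ε - j) :=
      hχ.1.comp ((contDiff_id.div_const ε).sub contDiff_const)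
    have hψ' : Tst fun s => χ (s / ε - j) * ψ s :=
      ⟨hcd.mul hA.2.2.2.2.2.1, hA.2.2.2.2.2.2.mul_left⟩
    have hA' : Adm a b κ (fun s => χ (s / ε - j) * ψ s) :=
      ⟨ha, hb, hab, hA.2.2.2.1, hA.2.2.2.2.1, hψ'⟩
    have g1 := h.gen a b κ 0 _ 0 (fun _ => b) v (tc Q Th a b (j * ε) w) hA' (const_sim b)
    have g2 := h.gen a b κ 0 _ 0 (fun _ => b) (tc Q Th a b (j * ε) v) w hA' (const_sim b)
    simp only [Complex.ofReal_zero, zero_smul, Finset.sum_const_zero, sub_zero] at g1 g2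
    have g3 := (g1.sub g2).const_mul Complex.I
    have e : (∫ u, ((χ (u / ε - j) * ψ u : ℝ) : ℂ)) * gg Q Th A a b v w (j * ε) =
        Complex.I * ((∫ u, ((χ (u / ε - j) * ψ u : ℝ) : ℂ)) *
          inner ℂ (tc Q Th a b (j * ε) w) (A (fun _ => b) v) -
        (∫ u, ((χ (u / ε - j) * ψ u : ℝ) : ℂ)) *
          inner ℂ w (A (fun _ => b) (tc Q Th a b (j * ε) v))) := by
      unfold gg
      rw [th_symm hT hh ha hb hab, ← H746.A_symm h.toRep (const_sim b)]
      ring
    rw [e]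
    refine g3.congr' ?_
    filter_upwards [eventually_ge_atTop (1 : ℝ)] with R hR
    exact (slab_con hT h hh ha hb hab hχ hA ε j _ hR v w).symm
  have hsum := tendsto_finset_sum (Finset.Icc (-(M : ℤ)) M) fun j _ => hlim j
  refine hsum.congr fun R => ?_
  rw [Finset.sum_comm]
  refine Finset.sum_congr rfl fun m _ => ?_
  rw [Finset.sum_comm]
  refine Finset.sum_congr rfl fun n _ => ?_
  rw [slab_fin hT hh ha hb hab hK (hsupp R) hε hM, Finset.mul_sum]

lemma gg_cont (v w : D) : Continuous (gg Q Th A a b v w) :=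
  continuous_const.mul ((hh.cont a b _ _ ha hb hab).sub (hh.cont a b _ _ ha hb hab))

variable (h1 : ∀ s, ∑ᶠ j : ℤ, χ (s - j) = 1) (hX : PtCom Q T Th χ a X)
  (hX0 : ∀ m n f v, GF.IsTest f → HasCompactSupport f → X m n f v = 0)
include h1 hX hX0

/-- the averaged commutator with the momentum vanishes -/
lemma gg_zero {ψ : ℝ → ℝ} (hψ : Tst ψ) (v w : D) :
    ∫ u, (ψ u : ℂ) * gg Q Th A a b v w u = 0 := by
  obtain ⟨κ, hκ, hκ1⟩ := exists_kp
  have hA : Adm a b κ ψ := ⟨ha, hb, hab, hκ, hκ1, hψ⟩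
  set cab : ℝ := ∑ m, ∑ n, ‖((eta m * a m * (eta n * b n) : ℝ) : ℂ)‖ with hcab
  have hcab0 : 0 ≤ cab := Finset.sum_nonneg fun m _ => Finset.sum_nonneg fun n _ => norm_nonneg _
  have hr := riemann hχ h1 hψ (gg_cont (A := A) hT h hh ha hb hab hχ v w)
  have hbd : ∀ δ > 0, ‖∫ u, (ψ u : ℂ) * gg Q Th A a b v w u‖ ≤ cab * δ := by
    intro δ hδ
    refine le_of_tendsto hr.norm ?_
    have h2 : ∀ᶠ ε in 𝓝[>] (0:ℝ), ∀ m n, ∀ᶠ R in atTop,
        ‖slab Q T Th χ a b m n ε (fun x => (ctf a b κ 0 ψ R x : ℂ)) v w -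
          inner ℂ w (X m n (fun x => (ctf a b κ 0 ψ R x : ℂ)) v)‖ ≤ δ :=
      eventually_all.2 fun m => eventually_all.2 fun n => hX.inf b κ ψ m n v w hA δ hδ
    filter_upwards [h2, self_mem_nhdsWithin] with ε hε hε0
    refine le_of_tendsto (slab_lim hT h hh ha hb hab hχ hA hε0 v w).norm ?_
    have h3 : ∀ᶠ R in atTop, ∀ m n,
        ‖slab Q T Th χ a b m n ε (fun x => (ctf a b κ 0 ψ R x : ℂ)) v w -
          inner ℂ w (X m n (fun x => (ctf a b κ 0 ψ R x : ℂ)) v)‖ ≤ δ :=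
      eventually_all.2 fun m => eventually_all.2 fun n => hε m n
    filter_upwards [h3, eventually_ge_atTop (1 : ℝ)] with R hR hR1
    have ht := H755.ctf_tst hA 0 hR1
    rw [hcab, Finset.sum_mul]
    refine norm_sum_le_of_le _ fun m _ => ?_
    rw [Finset.sum_mul]
    refine norm_sum_le_of_le _ fun n _ => ?_
    rw [norm_mul]
    refine mul_le_mul_of_nonneg_left ?_ (norm_nonneg _)
    have h4 := hR m n
    have hcs : HasCompactSupport fun x => ((ctf a b κ 0 ψ R x : ℝ) : ℂ) :=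
      ht.2.comp_left (g := fun r : ℝ => (r : ℂ)) (by simp)
    rw [hX0 m n _ v ht.isTest hcs, inner_zero_right, sub_zero] at h4
    exact h4
  by_contra hne
  have hpos : 0 < ‖∫ u, (ψ u : ℂ) * gg Q Th A a b v w u‖ := norm_pos_iff.2 hne
  set P := ‖∫ u, (ψ u : ℂ) * gg Q Th A a b v w u‖ with hP
  have h5 := hbd (P / (2 * (cab + 1))) (by positivity)
  have h6 : cab * (P / (2 * (cab + 1))) ≤ P / 2 := by
    have h7 : cab / (cab + 1) ≤ 1 := (div_le_one (by linarith)).2 (by linarith)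
    calc cab * (P / (2 * (cab + 1))) = (cab / (cab + 1)) * (P / 2) := by field_simp
      _ ≤ 1 * (P / 2) := by gcongr
      _ = P / 2 := one_mul _
  linarith

/-- **The integral of the trace does not depend on the hyperplane.** -/
theorem tc_const (v : D) (u : ℝ) : tc Q Th a b u v = tc Q Th a b 0 v := by
  refine ext_inner_left ℂ fun w => ?_
  refine const_of_int (h := fun u => inner ℂ w (tc Q Th a b u v)) (hh.cont a b v w ha hb hab)
    (fun G hG => ?_) u
  obtain ⟨κ, hκ, hκ1⟩ := exists_kp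
  have hA : Adm a b κ G := ⟨ha, hb, hab, hκ, hκ1, hG⟩
  have hA' : Adm a b κ (deriv G) := ⟨ha, hb, hab, hκ, hκ1, H746.tder hG⟩
  have l1 := hh.lim a b κ 0 G (A (fun _ => b) v) w hA
  have l2 := hh.lim a b κ 0 G v (A (fun _ => b) w) hA
  have l3 := (hh.lim a b κ 0 (deriv G) v w hA').const_mul Complex.I
  have l4 := (l2.sub l1).congr' (f₂ := fun R => Complex.I * inner ℂ w
      (GF.tr T (fun x => ((ctf a b κ 0 (deriv G) R x : ℝ) : ℂ)) v)) (by
    filter_upwards [eventually_ge_atTop (1 : ℝ)] with R hR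
    have h2 := H846.A_tr_w h.toRep hT (X := fun _ => b) (c := b) (w := 0) (fun m n => by simp)
      (fun z n => by simp) (H755.ctf_tst hA 0 hR).isTest v w
    rw [H846.vf_b hA hR] at h2
    exact h2)
  have l5 := tendsto_nhds_unique l4 l3
  have h3 := gg_zero hT h hh ha hb hab hχ h1 hX hX0 hG v w
  have i1 := tst_intR hG (hh.cont a b (A (fun _ => b) v) w ha hb hab)
  have i2 := tst_intR hG (hh.cont a b v (A (fun _ => b) w) ha hb hab)
  have e : (fun u => (G u : ℂ) * gg Q Th A a b v w u) = fun u => Complex.I *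
      ((G u : ℂ) * inner ℂ w (tc Q Th a b u (A (fun _ => b) v)) -
        (G u : ℂ) * inner ℂ (A (fun _ => b) w) (tc Q Th a b u v)) := by
    funext u
    unfold gg
    ring
  rw [e, integral_const_mul, integral_sub i1 i2] at h3
  have h4 := (mul_eq_zero.1 h3).resolve_left Complex.I_ne_zero
  have h6 : Complex.I * ∫ u, ((deriv G u : ℝ) : ℂ) * inner ℂ w (tc Q Th a b u v) = 0 := by
    rw [← l5]
    linear_combination -h4
  exact (mul_eq_zero.1 h6).resolve_left Complex.I_ne_zero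

/-- **The integral of the trace commutes with the stress tensor.** -/
theorem tc_comm (m n : Ix) {f : Fn} (hf : GF.IsTest f) (hc : HasCompactSupport f) (v : D) :
    tc Q Th a b 0 (T m n f v) = T m n f (tc Q Th a b 0 v) := by
  obtain ⟨Kχ, Bχ, hK0, hB0, hK, hB⟩ := tst_bounds hχ
  obtain ⟨C, hC⟩ := bound_mdot a hc
  refine ext_inner_left ℂ fun w => ?_
  have l1 := hX.loc b f m n v w hb hab hf hc
  rw [hX0 m n f v hf hc, inner_zero_right] at l1
  have hcst := tc_const hT h hh ha hb hab hχ h1 hX hX0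
  have key : ∀ ε : ℝ, 0 < ε → slab Q T Th χ a b m n ε f v w =
      Complex.I * (inner ℂ w (tc Q Th a b 0 (T m n f v)) -
        inner ℂ w (T m n f (tc Q Th a b 0 v))) := by
    intro ε hε
    obtain ⟨M, hM⟩ := exists_nat_gt (Kχ + C / ε)
    rw [slab_fin hT hh ha hb hab hK hC hε hM]
    unfold cmt
    simp only [fun (u : ℝ) (v : D) => hcst v u]
    rw [← Finset.mul_sum, Finset.sum_sub_distrib, ← inner_sum, ← inner_sum,
      ← tc_sum hT hh ha hb hab]
    have e1 : ∀ v, ∑ j ∈ Finset.Icc (-(M : ℤ)) M, T m n (sl χ a ε j f) v = T m n f v := by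
      intro v
      have e2 := (fld_fsum (Q.bose_fld _ (hT.bose m n)) (Finset.Icc (-(M : ℤ)) M)
        (f := fun j => sl χ a ε j f) (fun j => (sl_test hχ a ε j hf hc).1) v).2
      rw [← e2, sl_part hK h1 hC hε hM]
    rw [e1, e1]
  have l2 : Tendsto (fun _ : ℝ => Complex.I * (inner ℂ w (tc Q Th a b 0 (T m n f v)) -
      inner ℂ w (T m n f (tc Q Th a b 0 v)))) (𝓝[>] 0) (𝓝 0) := by
    refine l1.congr' ?_
    filter_upwards [self_mem_nhdsWithin] with ε hε
    exact key ε hε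
  have h2 := tendsto_nhds_unique tendsto_const_nhds l2
  exact sub_eq_zero.1 ((mul_eq_zero.1 h2).resolve_left Complex.I_ne_zero)

end

end Vale.Agent.P352.R2.H716

end
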