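import Vale.Agent.P352.R2.H716.Slab
import Vale.Agent.P352.H755.R7h
import Vale.Agent.P352.H746.Flow2
import Vale.Agent.P352.H746.Nrt
import Vale.Agent.P352.H993.Lin

/-!
# Finite multiplets
-/

set_option linter.all false

noncomputable section

open MeasureTheory Filter Topology Set
open scoped ComplexConjugate ContDiff

namespace Vale.Agent.P352.R2.H716

open GF (Ix V Fn Fld bas eta o bar pd sim)
open H755 H496 H15 H246
open H746 (Crv nrt sim_nrt isLor_nrt)

variable {D : Type*} [NormedAddCommGroup D] [InnerProductSpace ℂ D]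
variable {Q Q' : GF.Theory D} {T : Ix → Ix → GF.Fld D} {J : Ix → GF.Fld D}
  {A : (V → V) → D → D} {K : V → D → D} {Th : V → D → D}

/-- test functions with compact support -/
abbrev Ts := {f : Fn // GF.IsTest f ∧ HasCompactSupport f}

/-- tensor fields acting on the vacuum -/
abbrev E3 (D : Type*) := Ix → Ix → Ts → D

/-- the vectors created from the vacuum by the field `X a` -/
def xx (Q : GF.Theory D) (X : V → Ix → Ix → GF.Fld D) (a : V) : E3 D :=
  fun m n f => X a m n f.1 Q.vac

/-- transformed test functions -/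
def tsim {L : Ix → V} (hL : GF.IsLor L) (f : Ts) : Ts :=
  ⟨fun x => f.1 (sim 1 L 0 x), test_sim one_pos hL f.2.1, hcs_sim one_pos hL f.2.2⟩

/-- Lorentz transformations of tensor fields acting on the vacuum -/
def Mx (Q : GF.Theory D) {L : Ix → V} (hL : GF.IsLor L) : E3 D →ₗ[ℂ] E3 D where
  toFun y := fun m n f => ∑ k, ∑ l, (L k m * L l n : ℂ) • Q.U 1 L 0 (y k l (tsim hL f))
  map_add' y z := by
    funext m n f
    simp only [Pi.add_apply, U_add one_pos hL, smul_add, Finset.sum_add_distrib]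
  map_smul' c y := by
    funext m n f
    simp only [Pi.smul_apply, U_smul one_pos hL, RingHom.id_apply, Finset.smul_sum]
    refine Finset.sum_congr rfl fun k _ => Finset.sum_congr rfl fun l _ => ?_
    rw [smul_comm]

section

variable {χ : ℝ → ℝ} {X : V → Ix → Ix → GF.Fld D}
variable (hT : Q.IsStress T) (h : Rep Q A) (hh : TrCh Q T Th) (hχ : Tst χ)
  (hX : ∀ a, IsNull a → PtCom Q T Th χ a (X a))
include hT hh hχ hX

lemma xx_scale {a : V} (ha : IsNull a) {r : ℝ} (hr : 0 < r) :
    xx Q X (r • a) = ((r⁻¹ : ℝ) : ℂ) • xx Q X a := by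
  funext m n f
  exact X_scale hT hh hχ hX ha hr m n f.2.1 f.2.2 Q.vac

include h

lemma xx_cov {a : V} (ha : IsNull a) {L : Ix → V} (hL : GF.IsLor L) :
    xx Q X (sim 1 L 0 a) = Mx Q hL (xx Q X a) := by
  funext m n f
  have h1 := X_cov hT h hh hχ hX ha hL m n f.2.1 f.2.2 Q.vac
  rw [Q.U_vac 1 L 0 one_pos hL] at h1
  exact h1

/-- continuity along curves of Lorentz transformations -/
lemma xx_tend (hE : IsEnl Q Q') {k : ℕ} {Φ : Fin k → GF.Fld D} (hΦ : ∀ i, Q'.bose (Φ i))
    {c : V → Ix → Ix → Fin k → ℂ}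
    (hXc : ∀ a m n f v, X a m n f v = ∑ i, c a m n i • Φ i f v)
    {L : ℝ → Ix → V} {w : Ix → V} (hw : ∀ m n, eta n * w m n = -(eta m * w n m))
    (KK : Crv (fun _ => 1) L (fun _ => 0) w 0 0) {a : V} (ha : IsNull a) :
    Tendsto (fun e => xx Q X (sim 1 (L e) 0 a)) (𝓝 0) (𝓝 (xx Q X a)) := by
  have h' : Rep Q' A := ⟨by rw [hE.U]; exact h.mul, h.add, by rw [hE.U]; exact h.der⟩
  have hL0 : sim 1 (L 0) 0 a = a := by
    rw [KK.L0]
    funext n
    simp [sim, GF.one, bas]
  rw [tendsto_pi_nhds]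
  intro m
  rw [tendsto_pi_nhds]
  intro n
  rw [tendsto_pi_nhds]
  rintro ⟨f, hf, hc⟩
  obtain ⟨F, rfl⟩ := exists_fl hf
  have hval : ∀ e, xx Q X (sim 1 (L e) 0 a) m n ⟨fl F, hf, hc⟩ =
      ∑ k, ∑ l, (L e k m * L e l n : ℂ) • Q.U 1 (L e) 0 (X a k l (fl (KK.cs F e)) Q.vac) := by
    intro e
    rw [xx_cov hT h hh hχ hX ha (KK.lor e)]
    show ∑ k, ∑ l, (L e k m * L e l n : ℂ) • Q.U 1 (L e) 0
      (X a k l (fun x => fl F (sim 1 (L e) 0 x)) Q.vac) = _
    have e1 : (fun x => fl F (sim 1 (L e) 0 x)) = fl (KK.cs F e) :=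
      fl_sim 1 one_pos (KK.lor e) 0 F
    rw [e1]
  have hXs : ∀ z n, (fun z : V => fun n => ∑ m, z m * w m n) z n =
      (0 : V) n + 0 * z n + ∑ m, z m * w m n := by
    intro z n; simp
  have hcont : ContinuousAt (fun e => xx Q X (sim 1 (L e) 0 a) m n ⟨fl F, hf, hc⟩) 0 := by
    simp only [hval]
    refine tendsto_finset_sum _ fun k _ => tendsto_finset_sum _ fun l _ => ?_
    refine Tendsto.smul ?_ ?_
    · have h1 : ContinuousAt (fun e => L e k m) 0 := (KK.dL k m).continuousAt
      have h2 : ContinuousAt (fun e => L e l n) 0 := (KK.dL l n).continuousAt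
      have h3 : ContinuousAt (fun e => ((L e k m : ℝ) : ℂ)) 0 :=
        Complex.continuous_ofReal.continuousAt.comp h1
      have h4 : ContinuousAt (fun e => ((L e l n : ℝ) : ℂ)) 0 :=
        Complex.continuous_ofReal.continuousAt.comp h2
      exact h3.mul h4
    · have h5 : HasDerivAt (fun e => X a k l (fl (KK.cs F e)) Q.vac)
          (∑ i, c a k l i • H746.fcl (Q'.bose_fld _ (hΦ i)) Q.vac (H746.vfS w 0 0 F)) 0 := by
        simp only [hXc]
        refine HasDerivAt.fun_sum fun i _ => ?_
        have h6 := KK.der ((H746.fcl (Q'.bose_fld _ (hΦ i)) Q.vac).restrictScalars ℝ) F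
        exact h6.const_smul (c a k l i)
      exact (H746.der_U h KK hXs h5).continuousAt
  have h7 := hcont.tendsto
  simp only [hL0] at h7
  exact h7

end

/-! ### Null rotations and boosts -/

/-- the images of `b` under null rotations -/
def kk (a b w : V) (s : ℝ) : V := b + (2 * s) • w + (2 * s ^ 2) • a

section

variable {a b w : V} (ha : IsNull a) (hb : IsNull b) (hab : GF.mdot a b = 1)
  (haw : GF.mdot a w = 0) (hbw : GF.mdot b w = 0) (hww : GF.mdot w w = -1)
include ha hb hab haw hbw hww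

lemma sim_kk (s : ℝ) : sim 1 (nrt a (s • w)) 0 b = kk a b w s := by
  have hwb : GF.mdot w b = 0 := by rw [md_comm]; exact hbw
  rw [sim_nrt]
  simp only [md_smul, md_smul_l, hwb, hab, hww]
  unfold kk
  module

lemma lor_kk (s : ℝ) : GF.IsLor (nrt a (s • w)) :=
  isLor_nrt ha (by rw [md_smul, haw, mul_zero])

lemma null_kk (s : ℝ) : IsNull (kk a b w s) := by
  rw [← sim_kk ha hb hab haw hbw hww]
  exact isNull_lor (lor_kk ha hb hab haw hbw hww s) hb

lemma crv_kk : Crv (fun _ => 1) (fun s : ℝ => nrt a (s • w)) (fun _ => 0)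
    (fun m n => -(2 * eta m * w m) * a n + (2 * eta m * a m) * w n) 0 0 where
  s0 := rfl
  L0 := by
    have h0 : GF.mdot (0 : V) 0 = 0 := by simp [GF.mdot]
    funext m
    simp [nrt, GF.one, h0]
  a0 := rfl
  sp _ := one_pos
  lor := lor_kk ha hb hab haw hbw hww
  ds := hasDerivAt_const _ _
  dL m n := by
    have e : (fun s : ℝ => nrt a (s • w) m n) = fun s : ℝ => bas m 1 n +
        s * (-(2 * eta m * w m) * a n + (2 * eta m * a m) * w n) +
        s ^ 2 * (2 * eta m * a m * a n) := by
      funext s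
      simp only [nrt, Pi.sub_apply, Pi.add_apply, Pi.smul_apply, smul_eq_mul, md_smul, md_smul_l,
        hww]
      ring
    rw [e]
    have h1 := ((hasDerivAt_id (0 : ℝ)).mul_const
      (-(2 * eta m * w m) * a n + (2 * eta m * a m) * w n)).const_add (bas m 1 n)
    have h2 := ((hasDerivAt_id (0 : ℝ)).pow 2).mul_const (2 * eta m * a m * a n)
    have h3 := h1.fun_add h2
    refine (h3.congr_deriv ?_)
    simp
  da n := hasDerivAt_const _ _

/-- the boosts -/
lemma lor_bst (t : ℝ) : GF.IsLor (bst a b (Real.exp t - 1) (Real.exp (-t) - 1)) := by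
  refine isLor_bst ha hb hab ?_ ?_
  · rw [add_sub_cancel]; exact Real.exp_pos t
  · rw [add_sub_cancel, add_sub_cancel, ← Real.exp_add, add_neg_cancel, Real.exp_zero]

lemma sim_bst_b (t : ℝ) : sim 1 (bst a b (Real.exp t - 1) (Real.exp (-t) - 1)) 0 b =
    Real.exp (-t) • b := by
  rw [sim_bst, hb.1, hab]
  module

lemma sim_bst_kk (t s : ℝ) :
    sim 1 (bst a b (Real.exp t - 1) (Real.exp (-t) - 1)) 0 (kk a b w s) =
      Real.exp (-t) • kk a b w (Real.exp t * s) := by
  have hba : GF.mdot b a = 1 := by rw [md_comm]; exact hab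
  have h1 : Real.exp (-t) * Real.exp t = 1 := by
    rw [← Real.exp_add, neg_add_cancel, Real.exp_zero]
  rw [sim_bst]
  unfold kk
  simp only [md_add, md_smul, hba, hab, haw, hbw, ha.1, hb.1]
  funext n
  simp only [Pi.add_apply, Pi.smul_apply, smul_eq_mul]
  linear_combination (-(2 * s) * w n - 2 * s ^ 2 * Real.exp t * a n) * h1

lemma kk_swap {s : ℝ} (hs : 0 < s) : kk a b w s = (2 * s ^ 2) • kk b a w (1 / (2 * s)) := by
  unfold kk
  funext n
  simp only [Pi.add_apply, Pi.smul_apply, smul_eq_mul]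
  field_simp
  ring

end

section

variable {χ : ℝ → ℝ} {X : V → Ix → Ix → GF.Fld D}
variable (hT : Q.IsStress T) (h : Rep Q A) (hh : TrCh Q T Th) (hχ : Tst χ)
  (hX : ∀ a, IsNull a → PtCom Q T Th χ a (X a))
include hT h hh hχ hX

/-- **The commutator annihilates the vacuum.** -/
theorem xx_zero (hE : IsEnl Q Q') {k : ℕ} {Φ : Fin k → GF.Fld D} (hΦ : ∀ i, Q'.bose (Φ i))
    {c : V → Ix → Ix → Fin k → ℂ}
    (hXc : ∀ a m n f v, X a m n f v = ∑ i, c a m n i • Φ i f v) {b : V} (hb : IsNull b) :
    xx Q X b = 0 := by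
  obtain ⟨a, ha, hba⟩ := H846.exists_dual hb
  have hab : GF.mdot a b = 1 := by rw [md_comm]; exact hba
  obtain ⟨w, haw, hbw, hww⟩ := H993.exists_w a b
  -- finite dimension
  set ee : Ix × Ix × Fin k → E3 D := fun t m n f =>
    if m = t.1 ∧ n = t.2.1 then Φ t.2.2 f.1 Q.vac else 0 with hee
  set S0 : Submodule ℂ (E3 D) := Submodule.span ℂ (Set.range ee) with hS0
  have hfd0 : FiniteDimensional ℂ S0 := FiniteDimensional.span_of_finite ℂ (Set.finite_range _)
  have hmem : ∀ a, xx Q X a ∈ S0 := by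
    intro a
    have e : xx Q X a = ∑ t : Ix × Ix × Fin k, c a t.1 t.2.1 t.2.2 • ee t := by
      funext m n f
      simp only [Finset.sum_apply, Pi.smul_apply, hee]
      simp only [xx, hXc, Fintype.sum_prod_type]
      rw [Finset.sum_eq_single m]
      · rw [Finset.sum_eq_single n]
        · simp
        · intro l _ hl
          refine Finset.sum_eq_zero fun i _ => ?_
          rw [if_neg (fun hh => hl hh.2.symm), smul_zero]
        · intro hn; exact absurd (Finset.mem_univ _) hn
      · intro l _ hl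
        refine Finset.sum_eq_zero fun i _ => Finset.sum_eq_zero fun j _ => ?_
        rw [if_neg (fun hh => hl hh.1.symm), smul_zero]
      · intro hn; exact absurd (Finset.mem_univ _) hn
    rw [e]
    exact Submodule.sum_mem _ fun t _ => Submodule.smul_mem _ _ (Submodule.subset_span ⟨t, rfl⟩)
  set g : ℝ → E3 D := fun s => xx Q X (kk a b w s) with hg
  set S : Submodule ℂ (E3 D) := Submodule.span ℂ (g '' Ioi 0) with hS
  have hSS : S ≤ S0 := Submodule.span_le.2 (by rintro _ ⟨s, -, rfl⟩; exact hmem _)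
  have hfd : FiniteDimensional ℂ S := Submodule.finiteDimensional_of_le hSS
  -- the closure of the span
  have hlim : ∀ {a b : V}, IsNull a → IsNull b → GF.mdot a b = 1 → GF.mdot a w = 0 →
      GF.mdot b w = 0 → Tendsto (fun s => xx Q X (kk a b w s)) (𝓝 0) (𝓝 (xx Q X b)) := by
    intro a b ha hb hab haw hbw
    have h1 := xx_tend hT h hh hχ hX hE hΦ hXc (by intro m n; ring)
      (crv_kk ha hb hab haw hbw hww) hb
    simp only [sim_kk ha hb hab haw hbw hww] at h1
    exact h1
  have hxb : xx Q X b ∈ S := by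
    have hcl : IsClosed (S : Set (E3 D)) := Submodule.closed_of_finiteDimensional S
    have h1 := (hlim ha hb hab haw hbw).mono_left (nhdsWithin_le_nhds (s := Ioi (0:ℝ)))
    refine hcl.mem_of_tendsto h1 ?_
    filter_upwards [self_mem_nhdsWithin] with s hs
    exact Submodule.subset_span ⟨s, hs, rfl⟩
  -- decay
  have hdec : Tendsto g atTop (𝓝 0) := by
    have t1 : Tendsto (fun s : ℝ => 1 / (2 * s)) atTop (𝓝 0) := by
      have : Tendsto (fun s : ℝ => 2 * s) atTop atTop :=
        tendsto_id.const_mul_atTop two_pos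
      refine this.inv_tendsto_atTop.congr fun s => ?_
      rw [Pi.inv_apply, one_div]
    have t2 := (hlim hb ha hba hbw haw).comp t1
    have t3 : Tendsto (fun s : ℝ => (((2 * s ^ 2)⁻¹ : ℝ) : ℂ)) atTop (𝓝 ((0 : ℝ) : ℂ)) := by
      refine (Complex.continuous_ofReal.tendsto 0).comp ?_
      have : Tendsto (fun s : ℝ => 2 * s ^ 2) atTop atTop :=
        (tendsto_pow_atTop two_ne_zero).const_mul_atTop two_pos
      exact this.inv_tendsto_atTop
    have t4 := t3.smul t2
    rw [Complex.ofReal_zero, zero_smul] at t4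
    refine t4.congr' ?_
    filter_upwards [eventually_gt_atTop (0 : ℝ)] with s hs
    simp only [Function.comp_apply, hg]
    rw [kk_swap ha hb hab haw hbw hww hs, xx_scale hT hh hχ hX
      (null_kk hb ha hba hbw haw hww _) (by positivity)]
  -- the boosts
  set M : ℝ → E3 D →ₗ[ℂ] E3 D := fun t => Mx Q (lor_bst ha hb hab haw hbw hww t) with hM
  have hMg : ∀ t s, M t (g s) = ((Real.exp t : ℝ) : ℂ) • g (Real.exp t * s) := by
    intro t s
    simp only [hM, hg]
    rw [← xx_cov hT h hh hχ hX (null_kk ha hb hab haw hbw hww s),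
      sim_bst_kk ha hb hab haw hbw hww, xx_scale hT hh hχ hX
      (null_kk ha hb hab haw hbw hww _) (Real.exp_pos _), ← Real.exp_neg, neg_neg]
  have hMb : ∀ t, M t (xx Q X b) = ((Real.exp t : ℝ) : ℂ) • xx Q X b := by
    intro t
    simp only [hM]
    rw [← xx_cov hT h hh hχ hX hb, sim_bst_b ha hb hab haw hbw hww,
      xx_scale hT hh hχ hX hb (Real.exp_pos _), ← Real.exp_neg, neg_neg]
  have hdecS : ∀ y ∈ S, Tendsto (fun t => ((Real.exp (-t) : ℝ) : ℂ) • M t y) atTop (𝓝 0) := by
    intro y hy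
    induction hy using Submodule.span_induction with
    | mem y hy =>
      obtain ⟨s, hs, rfl⟩ := hy
      have t1 : Tendsto (fun t : ℝ => Real.exp t * s) atTop atTop :=
        Real.tendsto_exp_atTop.atTop_mul_const hs
      refine (hdec.comp t1).congr fun t => ?_
      rw [Function.comp_apply, hMg, smul_smul, ← Complex.ofReal_mul, ← Real.exp_add,
        neg_add_cancel, Real.exp_zero, Complex.ofReal_one, one_smul]
    | zero => simp only [map_zero, smul_zero]; exact tendsto_const_nhds
    | add y z _ _ h1 h2 =>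
      have := h1.add h2
      rw [add_zero] at this
      refine this.congr fun t => ?_
      rw [map_add, smul_add]
    | smul c y _ h1 =>
      have := h1.const_smul c
      rw [smul_zero] at this
      refine this.congr fun t => ?_
      rw [map_smul, smul_comm]
  have h1 := hdecS _ hxb
  have h2 : Tendsto (fun _ : ℝ => xx Q X b) atTop (𝓝 0) := by
    refine h1.congr fun t => ?_
    rw [hMb, smul_smul, ← Complex.ofReal_mul, ← Real.exp_add, neg_add_cancel, Real.exp_zero,
      Complex.ofReal_one, one_smul]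
  exact tendsto_nhds_unique tendsto_const_nhds h2

end

end Vale.Agent.P352.R2.H716

end
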