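import Vale.Agent.P352.H15.NPDefs

open MeasureTheory Filter Topology

namespace Vale.Agent.P352.R2.H716

open GF H496 H755 H15

noncomputable section

variable {D : Type*} [NormedAddCommGroup D] [InnerProductSpace ℂ D]

/-- The translate `U(u b) Θ_a U(-u b)` of the operator `Θ_a`. -/
def tc (Q : Theory D) (Th : V → D → D) (a b : V) (u : ℝ) (v : D) : D :=
  Q.U 1 GF.one (u • b) (Th a (Q.U 1 GF.one (-(u • b)) v))

/-- The integrals of the trace of `T` over null hyperplanes exist: the integral over the null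
hyperplane `a·x = 0` is the operator `Th a` on `D`, and it is weakly continuous under
translations. -/
structure TrCh (Q : Theory D) (T : Ix → Ix → Fld D) (Th : V → D → D) : Prop where
  lim : ∀ a b κ y ψ v w, Adm a b κ ψ → Tendsto (fun R => inner ℂ w
    (tr T (fun x => (ctf a b κ y ψ R x : ℂ)) v)) atTop
    (𝓝 (∫ u, (ψ u : ℂ) * inner ℂ w (tc Q Th a b u v)))
  cont : ∀ a b v w, IsNull a → IsNull b → mdot a b = 1 →
    Continuous fun u : ℝ => inner ℂ w (tc Q Th a b u v)

/-- The matrix element `⟨w, i[Θ_a(u), T^{mn}(f)] v⟩`, where `Θ_a(u)` is the integral of the trace of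
`T` over the null hyperplane `a·x = u`. -/
def cmt (Q : Theory D) (T : Ix → Ix → Fld D) (Th : V → D → D) (a b : V) (m n : Ix) (u : ℝ) (f : Fn)
    (v w : D) : ℂ :=
  Complex.I * (inner ℂ w (tc Q Th a b u (T m n f v)) - inner ℂ w (T m n f (tc Q Th a b u v)))

/-- The test function `f` is cut into thin slabs `a·x ≈ j ε`, and the slab number `j` is commuted
with the integral of the trace over the null hyperplane `a·x = j ε`. -/
def slab (Q : Theory D) (T : Ix → Ix → Fld D) (Th : V → D → D) (χ : ℝ → ℝ) (a b : V) (m n : Ix)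
    (ε : ℝ) (f : Fn) (v w : D) : ℂ :=
  ∑ᶠ j : ℤ, cmt Q T Th a b m n (j * ε) (fun x => (χ (mdot a x / ε - j) : ℂ) * f x) v w

/-- The tensor field `X` is the commutator `i[Θ_a(a·x), T(x)]` of the stress tensor at the point
`x` and the integral of the trace of `T` over the null hyperplane through `x` orthogonal to `a`:
the limit of thin slabs. It is approached both for test functions with compact support and, with
arbitrarily small error, for the cutoff functions of null hyperplanes. -/
structure PtCom (Q : Theory D) (T : Ix → Ix → Fld D) (Th : V → D → D) (χ : ℝ → ℝ) (a : V)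
    (X : Ix → Ix → Fld D) : Prop where
  loc : ∀ b f m n v w, IsNull b → mdot a b = 1 → IsTest f → HasCompactSupport f →
    Tendsto (fun ε => slab Q T Th χ a b m n ε f v w) (𝓝[>] 0) (𝓝 (inner ℂ w (X m n f v)))
  inf : ∀ b κ ψ m n v w, Adm a b κ ψ → ∀ δ > 0, ∀ᶠ ε in 𝓝[>] 0, ∀ᶠ R in atTop,
    ‖slab Q T Th χ a b m n ε (fun x => (ctf a b κ 0 ψ R x : ℂ)) v w -
      inner ℂ w (X m n (fun x => (ctf a b κ 0 ψ R x : ℂ)) v)‖ ≤ δ

/-- The integrals of the trace of `T` over null hyperplanes act on the stress tensor at the points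
of the null hyperplanes through finitely many local fields `Φ i`: the commutators
`i[Θ_a(a·x), T^{mn}(x)]` are linear combinations of the fields `Φ i` for all null vectors `a`. -/
def FinAct (Q : Theory D) (T : Ix → Ix → Fld D) (Th : V → D → D) : Prop :=
  ∃ (χ : ℝ → ℝ) (Q' : Theory D) (k : ℕ) (Φ : Fin k → Fld D) (c : V → Ix → Ix → Fin k → ℂ),
    Tst χ ∧ (∀ s, ∑ᶠ j : ℤ, χ (s - j) = 1) ∧ IsEnl Q Q' ∧ (∀ i, Q'.bose (Φ i)) ∧
    ∀ a, IsNull a → PtCom Q T Th χ a fun m n f v => ∑ i, c a m n i • Φ i f v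

end

end Vale.Agent.P352.R2.H716
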