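import Vale.Agent.P352.R2.H716.Csi
import Vale.Agent.P352.H15.V9
import Mathlib.Analysis.SpecialFunctions.SmoothTransition

/-!
# P352: the action of the on-shell trace on the stress tensor at the points of a null hyperplane
-/

set_option linter.all false

noncomputable section

open MeasureTheory Filter Topology Set
open scoped ComplexConjugate ContDiff

namespace Vale.Agent.P352.R2.H716

open GF (Ix V Fn Fld Theory bas eta o bar pd sim improve tr)
open H755 H496 H15 H246
open H121 (TrNull)

variable {D : Type*} [NormedAddCommGroup D] [InnerProductSpace ℂ D]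
variable {Q Q' : GF.Theory D} {T : Ix → Ix → GF.Fld D} {J : Ix → GF.Fld D}
  {A : (V → V) → D → D} {K : V → D → D} {Th : V → D → D}

/-- a smooth partition of unity by translates -/
lemma exists_part : ∃ χ : ℝ → ℝ, Tst χ ∧ ∀ s, ∑ᶠ j : ℤ, χ (s - j) = 1 := by
  set S : ℝ → ℝ := Real.smoothTransition with hS
  have hSs : ContDiff ℝ ∞ S := Real.smoothTransition.contDiff
  have h0 : ∀ s, s ≤ 0 → S s = 0 := fun s hs => Real.smoothTransition.zero_of_nonpos hs
  have h1 : ∀ s, 1 ≤ s → S s = 1 := fun s hs => Real.smoothTransition.one_of_one_le hs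
  refine ⟨fun s => S s - S (s - 1), ⟨hSs.sub (hSs.comp (contDiff_id.sub contDiff_const)), ?_⟩,
    fun s => ?_⟩
  · refine HasCompactSupport.intro (isCompact_Icc (a := (0:ℝ)) (b := 2)) fun s hs => ?_
    rw [mem_Icc, not_and_or, not_le, not_le] at hs
    rcases hs with hs | hs
    · rw [h0 s hs.le, h0 (s - 1) (by linarith), sub_zero]
    · rw [h1 s (by linarith), h1 (s - 1) (by linarith), sub_self]
  · obtain ⟨M, hM⟩ := exists_nat_gt (|s| + 2)
    have hs := abs_le.1 (le_refl |s|)
    have e1 : ∑ᶠ j : ℤ, (S (s - j) - S (s - j - 1)) =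
        ∑ j ∈ (Finset.range (2 * M)).image (fun i : ℕ => (i : ℤ) - M),
          (S (s - j) - S (s - j - 1)) := by
      refine finsum_eq_sum_of_support_subset _ fun j hj => ?_
      by_contra hn
      refine hj ?_
      show S (s - j) - S (s - j - 1) = 0
      rw [Finset.mem_coe, Finset.mem_image] at hn
      push Not at hn
      rcases lt_or_ge j (-(M : ℤ)) with h2 | h2
      · have h3 : (j : ℝ) < -(M : ℝ) := by exact_mod_cast h2
        rw [h1 _ (by linarith [hs.1]), h1 _ (by linarith [hs.1]), sub_self]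
      · rcases lt_or_ge j M with h4 | h4
        · exfalso
          refine hn (j + M).toNat (Finset.mem_range.2 ?_) ?_
          · omega
          · omega
        · have h3 : (M : ℝ) ≤ j := by exact_mod_cast h4
          rw [h0 _ (by linarith [hs.2]), h0 _ (by linarith [hs.2]), sub_self]
    rw [e1, Finset.sum_image (by intro x _ y _ hxy; simpa using hxy)]
    have e2 : ∀ i : ℕ, S (s - (((i : ℤ) - M : ℤ) : ℝ)) - S (s - (((i : ℤ) - M : ℤ) : ℝ) - 1) =
        (fun i : ℕ => S (s + M - i)) i - (fun i : ℕ => S (s + M - i)) (i + 1) := by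
      intro i
      simp only
      push_cast
      congr 2 <;> ring
    simp only [e2]
    rw [Finset.sum_range_sub']
    push_cast
    rw [h1 _ (by linarith [hs.1]), h0 _ (by linarith [hs.2]), sub_zero]

/-- the action of the on-shell trace through finitely many fields implies the constraint -/
theorem trVac_of_fin (hT : Q.IsStress T) (hJ : IsVirial Q T J) (h : NullCharges Q T J A K)
    (hh : TrCh Q T Th) (hF : FinAct Q T Th) : H846.TrVac Q T := by
  obtain ⟨χ, Q', k, Φ, c, hχ, h1, hE, hΦ, hX⟩ := hF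
  intro a b κ ψ m n f w hA hf hc _
  have ha := hA.1
  have hb := hA.2.1
  have hab := hA.2.2.1
  set X : V → Ix → Ix → GF.Fld D := fun a m n f v => ∑ i, c a m n i • Φ i f v with hXd
  have hz := xx_zero (X := X) hT h.toRep hh hχ hX hE hΦ (fun _ _ _ _ _ => rfl) ha
  have hX0 : ∀ m n f v, GF.IsTest f → HasCompactSupport f → X a m n f v = 0 := by
    intro m n f v hf hc
    have h2 := congrFun (congrFun (congrFun hz m) n) ⟨f, hf, hc⟩
    refine comb_zero (Q := Q') hΦ (c a m n) ha hb hab hf hc ?_ v
    rw [hE.vac]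
    exact h2
  have hcst := tc_const hT h hh ha hb hab hχ h1 (hX a ha) hX0
  have hcom := tc_comm hT h hh ha hb hab hχ h1 (hX a ha) hX0 m n hf hc Q.vac
  have hl := hh.lim a b κ 0 ψ (T m n f Q.vac) w hA
  have e : ∀ u, tc Q Th a b u (T m n f Q.vac) = 0 := by
    intro u
    rw [hcst, hcom, th_vac hT hh ha hb hab hJ h]
    obtain ⟨F, rfl⟩ := exists_fl hf
    have := Vale.Agent.P352.fld_smul (Q.bose_fld _ (hT.bose m n)) F 0 0
    simpa using this
  simpa only [e, inner_zero_right, mul_zero, integral_zero] using hl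

/-- the constraint implies that the integrals of the trace exist and act trivially -/
theorem fin_of_trNull (hT : Q.IsStress T) (ht : TrNull T) :
    ∃ Th : V → D → D, TrCh Q T Th ∧ FinAct Q T Th := by
  obtain ⟨χ, hχ, h1⟩ := exists_part
  have hU0 : ∀ x : V, Q.U 1 GF.one x 0 = 0 := by
    intro x
    have := U_smul (Q := Q) one_pos isLor_one x 0 0
    simpa using this
  have htc : ∀ a b u (v : D), tc Q (fun _ _ => 0) a b u v = 0 := fun a b u v => hU0 _
  have hcm : ∀ a b m n u g (v w : D), GF.IsTest g →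
      cmt Q T (fun _ _ => 0) a b m n u g v w = 0 := by
    intro a b m n u g v w hg
    unfold cmt
    rw [htc, htc]
    obtain ⟨F, rfl⟩ := exists_fl hg
    have := Vale.Agent.P352.fld_smul (Q.bose_fld _ (hT.bose m n)) F 0 0
    rw [zero_smul, zero_smul] at this
    rw [this]
    simp
  have hsl : ∀ a b m n ε f (v w : D), GF.IsTest f → HasCompactSupport f →
      slab Q T (fun _ _ => 0) χ a b m n ε f v w = 0 := by
    intro a b m n ε f v w hf hc
    rw [slab_def]
    exact finsum_eq_zero_of_forall_eq_zero fun j => hcm a b m n _ _ v w (sl_test hχ a ε j hf hc).1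
  refine ⟨fun _ _ => 0, ⟨fun a b κ y ψ v w hA => ?_, fun a b v w _ _ _ => ?_⟩,
    χ, Q, 0, fun i => i.elim0, fun _ _ _ i => i.elim0, hχ, h1,
    ⟨rfl, rfl, fun _ h => h, fun _ h => h⟩, fun i => i.elim0, fun a ha => ⟨?_, ?_⟩⟩
  · simp only [htc, inner_zero_right, mul_zero, integral_zero]
    exact ht a b κ y ψ v w hA
  · simp only [htc, inner_zero_right]
    exact continuous_const
  · intro b f m n v w hb hab hf hc
    simp only [Finset.univ_eq_empty, Finset.sum_empty, inner_zero_right]
    refine tendsto_const_nhds.congr fun ε => ?_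
    exact (hsl a b m n ε f v w hf hc).symm
  · intro b κ ψ m n v w hA δ hδ
    refine Eventually.of_forall fun ε => ?_
    filter_upwards [eventually_ge_atTop (1 : ℝ)] with R hR
    have htt := H755.ctf_tst hA 0 hR
    have hcs : HasCompactSupport fun x => ((ctf a b κ 0 ψ R x : ℝ) : ℂ) :=
      htt.2.comp_left (g := fun r : ℝ => (r : ℂ)) (by simp)
    rw [hsl a b m n ε _ v w htt.isTest hcs]
    simp only [Finset.univ_eq_empty, Finset.sum_empty, inner_zero_right, sub_zero, norm_zero]
    exact hδ.le

/-- **Conformal invariance and the action of the on-shell trace on the stress tensor.** -/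
theorem main (hT : Q.IsStress T) (hJ : IsVirial Q T J) (h : NullCharges Q T J A K) :
    (∃ L : Fld D, ∀ Q₁ : Theory D, IsEnl Q Q₁ → ∃ Q₂ : Theory D, IsEnl Q₁ Q₂ ∧
      Q₂.IsScalar L 2 ∧ Q₂.IsStress (improve T L) ∧ IsImpr Q₂ T (improve T L) ∧
      ConfAct Q₂ (improve T L)) ↔ ∃ Th : V → D → D, TrCh Q T Th ∧ FinAct Q T Th := by
  obtain ⟨k1, k2, -⟩ := (main_v9 (A := A) (K := K) hT hJ).1 h
  refine ⟨fun hc => fin_of_trNull hT (k2.2 hc), fun ⟨Th, hh, hF⟩ => ?_⟩
  exact k2.1 (k1.1 (trVac_of_fin hT hJ h hh hF))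

end Vale.Agent.P352.R2.H716

end
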