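import Vale.Agent.P352.H755.R7e

/-!
# Sampled integrals
-/

set_option linter.all false

noncomputable section

open MeasureTheory Filter Topology Set
open scoped ComplexConjugate ContDiff

namespace Vale.Agent.P352.R2.H716

open H755

/-- bounds of a partition of unity -/
lemma tst_bounds {χ : ℝ → ℝ} (hχ : Tst χ) : ∃ K B : ℝ, 0 ≤ K ∧ 0 ≤ B ∧ (∀ s, K < |s| → χ s = 0) ∧
    ∀ s, |χ s| ≤ B := by
  obtain ⟨M, hM⟩ := hχ.2.isCompact.isBounded.subset_closedBall (0 : ℝ)
  obtain ⟨B, hB⟩ := hχ.1.continuous.bounded_above_of_compact_support hχ.2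
  refine ⟨|M|, |B|, abs_nonneg _, abs_nonneg _, fun s hs => ?_, fun s => ?_⟩
  · by_contra hne
    have h1 := hM (subset_tsupport _ (Function.mem_support.2 hne))
    rw [mem_closedBall_zero_iff, Real.norm_eq_abs] at h1
    have := le_abs_self M
    linarith
  · have := hB s
    rw [Real.norm_eq_abs] at this
    exact this.trans (le_abs_self B)

/-- the function `g` sampled at the multiples of `ε` -/
def smp (χ : ℝ → ℝ) (g : ℝ → ℂ) (ε u : ℝ) : ℂ := ∑ᶠ j : ℤ, (χ (u / ε - j) : ℂ) * g (j * ε)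

section

variable {χ : ℝ → ℝ} {K B : ℝ} (hK0 : 0 ≤ K) (hB0 : 0 ≤ B) (hK : ∀ s, K < |s| → χ s = 0)
  (hB : ∀ s, |χ s| ≤ B)
include hK

lemma chi_out {s : ℝ} {j : ℤ} (hj : j ∉ Finset.Icc ⌈s - K⌉ ⌊s + K⌋) : χ (s - j) = 0 := by
  refine hK _ ?_
  by_contra hle
  push Not at hle
  have h1 := abs_le.1 hle
  refine hj (Finset.mem_Icc.2 ⟨Int.ceil_le.2 (by linarith [h1.2]), Int.le_floor.2 (by linarith [h1.1])⟩)

lemma smp_fin (g : ℝ → ℂ) (ε u : ℝ) : smp χ g ε u =
    ∑ j ∈ Finset.Icc ⌈u / ε - K⌉ ⌊u / ε + K⌋, (χ (u / ε - j) : ℂ) * g (j * ε) := by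
  unfold smp
  refine finsum_eq_sum_of_support_subset _ fun j hj => ?_
  by_contra hn
  refine hj ?_
  show (χ (u / ε - j) : ℂ) * g (j * ε) = 0
  rw [chi_out hK hn]
  simp

lemma chi_fin (s : ℝ) : ∑ᶠ j : ℤ, χ (s - j) = ∑ j ∈ Finset.Icc ⌈s - K⌉ ⌊s + K⌋, χ (s - j) :=
  finsum_eq_sum_of_support_subset _ fun j hj => by
    by_contra hn
    exact hj (chi_out hK hn)

include hK0 hB0 hB

lemma smp_close (h1 : ∀ s, ∑ᶠ j : ℤ, χ (s - j) = 1) {g : ℝ → ℂ} {ε u W : ℝ} (hε : 0 < ε)
    (hW : ∀ t, |t - u| ≤ K * ε → ‖g t - g u‖ ≤ W) : ‖smp χ g ε u - g u‖ ≤ (2 * K + 1) * (B * W) := by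
  have hW0 : 0 ≤ W := (norm_nonneg _).trans (hW u (by simpa using mul_nonneg hK0 hε.le))
  set S := Finset.Icc ⌈u / ε - K⌉ ⌊u / ε + K⌋ with hS
  have h2 : ∑ j ∈ S, χ (u / ε - j) = 1 := by rw [hS, ← chi_fin hK, h1]
  have h3 : smp χ g ε u - g u = ∑ j ∈ S, (χ (u / ε - j) : ℂ) * (g (j * ε) - g u) := by
    rw [smp_fin hK]
    have h4 : (∑ j ∈ S, (χ (u / ε - j) : ℂ)) = 1 := by exact_mod_cast h2
    simp only [mul_sub, Finset.sum_sub_distrib, ← Finset.sum_mul]
    rw [h4, one_mul]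
  have h5 : ‖smp χ g ε u - g u‖ ≤ ∑ j ∈ S, B * W := by
    rw [h3]
    refine norm_sum_le_of_le _ fun j hj => ?_
    have hj' := Finset.mem_Icc.1 hj
    have e1 := Int.ceil_le.1 hj'.1
    have e2 := Int.le_floor.1 hj'.2
    rw [norm_mul, Complex.norm_real, Real.norm_eq_abs]
    refine mul_le_mul (hB _) (hW _ ?_) (norm_nonneg _) hB0
    have e3 : (j : ℝ) * ε - u = ((j : ℝ) - u / ε) * ε := by field_simp
    rw [e3, abs_mul, abs_of_pos hε]
    refine mul_le_mul_of_nonneg_right (abs_le.2 ⟨by linarith, by linarith⟩) hε.le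
  refine h5.trans ?_
  rw [Finset.sum_const, nsmul_eq_mul]
  refine mul_le_mul_of_nonneg_right ?_ (mul_nonneg hB0 hW0)
  rw [hS, Int.card_Icc]
  have hf := Int.floor_le (u / ε + K)
  have hc := Int.le_ceil (u / ε - K)
  rcases le_total 0 (⌊u / ε + K⌋ + 1 - ⌈u / ε - K⌉) with h | h
  · have h6 : (((⌊u / ε + K⌋ + 1 - ⌈u / ε - K⌉).toNat : ℤ) : ℝ) =
        ((⌊u / ε + K⌋ + 1 - ⌈u / ε - K⌉ : ℤ) : ℝ) := by rw [Int.toNat_of_nonneg h]
    have h7 : (((⌊u / ε + K⌋ + 1 - ⌈u / ε - K⌉).toNat : ℕ) : ℝ) =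
        ((⌊u / ε + K⌋ + 1 - ⌈u / ε - K⌉ : ℤ) : ℝ) := by exact_mod_cast h6
    rw [h7]
    push_cast
    linarith
  · rw [Int.toNat_of_nonpos h]
    simp only [Nat.cast_zero]
    linarith

end

/-- **Sampled integrals converge.** -/
theorem riemann {χ : ℝ → ℝ} (hχ : Tst χ) (h1 : ∀ s, ∑ᶠ j : ℤ, χ (s - j) = 1) {ψ : ℝ → ℝ}
    (hψ : Tst ψ) {g : ℝ → ℂ} (hg : Continuous g) :
    Tendsto (fun ε => ∑ᶠ j : ℤ, (∫ u, ((χ (u / ε - j) * ψ u : ℝ) : ℂ)) * g (j * ε)) (𝓝[>] 0)
      (𝓝 (∫ u, (ψ u : ℂ) * g u)) := by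
  obtain ⟨K, B, hK0, hB0, hK, hB⟩ := tst_bounds hχ
  obtain ⟨C, B', hC0, -, hC, -⟩ := tst_bounds hψ
  have hcχ := hχ.1.continuous
  have hcψ := hψ.1.continuous
  -- exchange of the sum and the integral
  have ex : ∀ ε : ℝ, 0 < ε → ∑ᶠ j : ℤ, (∫ u, ((χ (u / ε - j) * ψ u : ℝ) : ℂ)) * g (j * ε) =
      ∫ u, (ψ u : ℂ) * smp χ g ε u := by
    intro ε hε
    obtain ⟨M, hM⟩ := exists_nat_gt (K + C / ε)
    have hz : ∀ j : ℤ, j ∉ Finset.Icc (-(M : ℤ)) M → ∀ u, χ (u / ε - j) * ψ u = 0 := by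
      intro j hj u
      by_cases hu : C < |u|
      · rw [hC u hu, mul_zero]
      · push Not at hu
        rw [hK _ ?_, zero_mul]
        have h2 : |u / ε| ≤ C / ε := by
          rw [abs_div, abs_of_pos hε]
          exact div_le_div_of_nonneg_right hu hε.le
        have h3 : (M : ℝ) < |(j : ℝ)| := by
          by_contra hle
          push Not at hle
          have h4 := abs_le.1 hle
          refine hj (Finset.mem_Icc.2 ⟨by exact_mod_cast h4.1, by exact_mod_cast h4.2⟩)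
        have h5 : |(j : ℝ)| - |u / ε| ≤ |u / ε - j| := by
          rw [abs_sub_comm]
          exact abs_sub_abs_le_abs_sub _ _
        linarith
    have e1 : ∑ᶠ j : ℤ, (∫ u, ((χ (u / ε - j) * ψ u : ℝ) : ℂ)) * g (j * ε) =
        ∑ j ∈ Finset.Icc (-(M : ℤ)) M, (∫ u, ((χ (u / ε - j) * ψ u : ℝ) : ℂ)) * g (j * ε) := by
      refine finsum_eq_sum_of_support_subset _ fun j hj => ?_
      by_contra hn
      refine hj ?_
      show (∫ u, ((χ (u / ε - j) * ψ u : ℝ) : ℂ)) * g (j * ε) = 0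
      simp only [hz j hn]
      simp
    have e2 : ∀ u, (ψ u : ℂ) * smp χ g ε u =
        ∑ j ∈ Finset.Icc (-(M : ℤ)) M, ((χ (u / ε - j) * ψ u : ℝ) : ℂ) * g (j * ε) := by
      intro u
      by_cases h0 : ψ u = 0
      · simp [h0]
      · have e3 : smp χ g ε u = ∑ j ∈ Finset.Icc (-(M : ℤ)) M, (χ (u / ε - j) : ℂ) * g (j * ε) := by
          refine finsum_eq_sum_of_support_subset _ fun j hj => ?_
          by_contra hn
          refine hj ?_
          show (χ (u / ε - j) : ℂ) * g (j * ε) = 0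
          have h3 := hz j hn u
          rw [(mul_eq_zero.1 h3).resolve_right h0]
          simp
        rw [e3, Finset.mul_sum]
        refine Finset.sum_congr rfl fun j _ => ?_
        push_cast
        ring
    rw [e1]
    simp only [e2]
    rw [integral_finset_sum]
    · refine Finset.sum_congr rfl fun j _ => ?_
      rw [integral_mul_const]
    · intro j _
      refine Integrable.mul_const ?_ _
      have hcs : HasCompactSupport fun u => χ (u / ε - j) * ψ u := hψ.2.mul_left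
      have hcc : HasCompactSupport fun u => ((χ (u / ε - j) * ψ u : ℝ) : ℂ) :=
        hcs.comp_left (g := fun r : ℝ => (r : ℂ)) (by simp)
      exact Continuous.integrable_of_hasCompactSupport (by fun_prop) hcc
  have hlim : Tendsto (fun ε => ∫ u, (ψ u : ℂ) * smp χ g ε u) (𝓝[>] 0)
      (𝓝 (∫ u, (ψ u : ℂ) * g u)) := by
    -- uniform estimate
    rw [Metric.tendsto_nhds]
    intro δ hδ
    set N : ℝ := ∫ u, |ψ u| with hN
    have hψi : Integrable ψ := hcψ.integrable_of_hasCompactSupport hψ.2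
    have hN0 : 0 ≤ N := integral_nonneg fun u => abs_nonneg _
    set η : ℝ := δ / (2 * ((2 * K + 1) * (B + 1) * (N + 1))) with hη
    have hη0 : 0 < η := by positivity
    -- uniform continuity
    have huc := (isCompact_Icc (a := -(C + K)) (b := C + K)).uniformContinuousOn_of_continuous
      hg.continuousOn
    rw [Metric.uniformContinuousOn_iff_le] at huc
    obtain ⟨ρ, hρ, huc⟩ := huc η hη0
    have hev : ∀ᶠ ε : ℝ in 𝓝[>] 0, 0 < ε ∧ ε < 1 ∧ K * ε < ρ := by
      have e1 : ∀ᶠ ε : ℝ in 𝓝[>] 0, 0 < ε := self_mem_nhdsWithin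
      have e2 : ∀ᶠ ε : ℝ in 𝓝[>] 0, ε < 1 := mem_nhdsWithin_of_mem_nhds (Iio_mem_nhds one_pos)
      have e3 : ∀ᶠ ε : ℝ in 𝓝[>] 0, K * ε < ρ := by
        have : Tendsto (fun ε : ℝ => K * ε) (𝓝[>] 0) (𝓝 (K * 0)) :=
          ((continuous_const.mul continuous_id).tendsto 0).mono_left nhdsWithin_le_nhds
        rw [mul_zero] at this
        exact this.eventually_lt_const hρ
      filter_upwards [e1, e2, e3] with ε h1 h2 h3 using ⟨h1, h2, h3⟩
    filter_upwards [hev] with ε hε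
    obtain ⟨hε0, hε1, hεK⟩ := hε
    have hpt : ∀ u, ‖(ψ u : ℂ) * smp χ g ε u - (ψ u : ℂ) * g u‖ ≤
        |ψ u| * ((2 * K + 1) * (B * η)) := by
      intro u
      rw [← mul_sub, norm_mul, Complex.norm_real, Real.norm_eq_abs]
      by_cases hu : C < |u|
      · rw [hC u hu]; simp
      · push Not at hu
        refine mul_le_mul_of_nonneg_left ?_ (abs_nonneg _)
        refine smp_close hK0 hB0 hK hB h1 hε0 fun t ht => ?_
        have hu' := abs_le.1 hu
        have h3 : |t - u| ≤ K := ht.trans (by nlinarith)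
        have h4 := abs_le.1 h3
        have h5 := huc t ⟨by linarith [h4.1, hu'.1], by linarith [h4.2, hu'.2]⟩ u
          ⟨by linarith [hu'.1], by linarith [hu'.2]⟩ (by rw [Real.dist_eq]; linarith)
        rwa [dist_eq_norm] at h5
    have hi2 : Integrable fun u => (ψ u : ℂ) * g u := tst_intR hψ hg
    have hi1 : Integrable fun u => (ψ u : ℂ) * smp χ g ε u := by
      obtain ⟨M, hM⟩ := exists_nat_gt (K + C / ε)
      have hz : ∀ j : ℤ, j ∉ Finset.Icc (-(M : ℤ)) M → ∀ u, ψ u ≠ 0 → χ (u / ε - j) = 0 := by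
        intro j hj u hψu
        have hu : |u| ≤ C := by
          by_contra hlt
          push Not at hlt
          exact hψu (hC u hlt)
        refine hK _ ?_
        have h2 : |u / ε| ≤ C / ε := by
          rw [abs_div, abs_of_pos hε0]
          exact div_le_div_of_nonneg_right hu hε0.le
        have h3 : (M : ℝ) < |(j : ℝ)| := by
          by_contra hle
          push Not at hle
          have h4 := abs_le.1 hle
          refine hj (Finset.mem_Icc.2 ⟨by exact_mod_cast h4.1, by exact_mod_cast h4.2⟩)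
        have h5 : |(j : ℝ)| - |u / ε| ≤ |u / ε - j| := by
          rw [abs_sub_comm]
          exact abs_sub_abs_le_abs_sub _ _
        linarith
      have e : (fun u => (ψ u : ℂ) * smp χ g ε u) = fun u =>
          ∑ j ∈ Finset.Icc (-(M : ℤ)) M, (ψ u : ℂ) * ((χ (u / ε - j) : ℂ) * g (j * ε)) := by
        funext u
        by_cases h0 : ψ u = 0
        · simp [h0]
        · rw [← Finset.mul_sum]
          congr 1
          refine finsum_eq_sum_of_support_subset _ fun j hj => ?_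
          by_contra hn
          refine hj ?_
          show (χ (u / ε - j) : ℂ) * g (j * ε) = 0
          rw [hz j hn u h0]
          simp
      rw [e]
      refine integrable_finset_sum _ fun j _ => tst_intR hψ ?_
      fun_prop
    rw [dist_eq_norm, ← integral_sub hi1 hi2]
    refine lt_of_le_of_lt (norm_integral_le_of_norm_le ((hψi.abs).mul_const _)
      (Eventually.of_forall hpt)) ?_
    rw [integral_mul_const, ← hN]
    have h6 : (2 * K + 1) * (B * η) ≤ (2 * K + 1) * (B + 1) * η := by nlinarith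
    calc N * ((2 * K + 1) * (B * η)) ≤ (N + 1) * ((2 * K + 1) * (B + 1) * η) := by
          refine mul_le_mul (by linarith) h6 (by positivity) (by linarith)
      _ = δ / 2 := by rw [hη]; field_simp
      _ < δ := by linarith
  refine hlim.congr' ?_
  filter_upwards [self_mem_nhdsWithin] with ε hε
  exact (ex ε hε).symm

end Vale.Agent.P352.R2.H716

end
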