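import Vale.Agent.P352.R2.H716.Fin

/-!
# The vacuum separates finite linear combinations of fields
-/

set_option linter.all false

noncomputable section

open MeasureTheory Filter Topology Set
open scoped ComplexConjugate ContDiff

namespace Vale.Agent.P352.R2.H716

open GF (Ix V Fn Fld bas eta o bar pd sim)
open H755 H496 H15 H246

variable {D : Type*} [NormedAddCommGroup D] [InnerProductSpace ℂ D] {Q : GF.Theory D}

lemma bounds_supp (a : V) {f : Fn} (hc : HasCompactSupport f) :
    ∃ C, 0 ≤ C ∧ ∀ x ∈ tsupport f, |GF.mdot a x| ≤ C := by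
  obtain ⟨C, hC⟩ := (hc.isCompact.image (f := fun x : V => GF.mdot a x)
    (H846.contDiff_mdot a).continuous).isBounded.subset_closedBall (0 : ℝ)
  refine ⟨|C|, abs_nonneg _, fun x hx => ?_⟩
  have h1 := hC ⟨x, hx, rfl⟩
  rw [mem_closedBall_zero_iff, Real.norm_eq_abs] at h1
  exact h1.trans (le_abs_self C)

/-- **Reeh–Schlieder.** -/
theorem comb_zero {k : ℕ} {Φ : Fin k → GF.Fld D} (hΦ : ∀ i, Q.bose (Φ i)) (c : Fin k → ℂ)
    {a b : V} (ha : IsNull a) (hb : IsNull b) (hab : GF.mdot a b = 1) {f : Fn}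
    (hf : GF.IsTest f) (hc : HasCompactSupport f) (h0 : ∑ i, c i • Φ i f Q.vac = 0) (v : D) :
    ∑ i, c i • Φ i f v = 0 := by
  choose Φ' hΦ' hadj using fun i => Q.adj (Φ i) (Q.bose_fld _ (hΦ i))
  have key : ∀ v w, inner ℂ (∑ i, c i • Φ i f v) w =
      inner ℂ v (∑ i, conj (c i) • Φ' i (bar f) w) := by
    intro v w
    rw [sum_inner, inner_sum]
    refine Finset.sum_congr rfl fun i _ => ?_
    rw [inner_smul_left, inner_smul_right, hadj i f v w hf]
  obtain ⟨A0, hA0, hA⟩ := bounds_supp a hc
  obtain ⟨B0, hB0, hB⟩ := bounds_supp b hc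
  set W : Set V := {y : V | A0 < GF.mdot a y ∧ GF.mdot b y < -B0} with hWd
  have hba : GF.mdot b a = 1 := by rw [md_comm]; exact hab
  have hW : Big (MW W) := by
    refine big_two (c := b - a) one_pos one_pos ?_ ?_
    · rw [md_sub, hab, ha.1, sub_zero]
    · rw [md_sub, hba, hb.1, zero_sub]
  have hsep : ∀ x ∈ tsupport f, ∀ y ∈ W, GF.mdot (x - y) (x - y) < 0 := by
    intro x hx y hy
    refine sep_mp ha hb hab ?_ ?_
    · exact ((abs_le.1 (hA x hx)).2).trans_lt hy.1
    · exact hy.2.trans_le (abs_le.1 (hB x hx)).1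
  have hz : ∀ w, ∑ i, conj (c i) • Φ' i (bar f) w = 0 := by
    intro w
    refine dens_eq (Q := Q) ha hb hab hW fun X X' hX => ?_
    rw [← key]
    have h1 : ∑ i, c i • Φ i f (X Q.vac) = X (∑ i, c i • Φ i f Q.vac) := by
      have h2 : ∀ (s : Finset (Fin k)), X (∑ i ∈ s, c i • Φ i f Q.vac) =
          ∑ i ∈ s, c i • Φ i f (X Q.vac) := by
        intro s
        classical
        induction s using Finset.induction_on with
        | empty =>
          simp only [Finset.sum_empty]
          have := hX.map_smul 0 0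
          rwa [zero_smul, zero_smul] at this
        | insert i s hi ih =>
          rw [Finset.sum_insert hi, Finset.sum_insert hi, hX.map_add, hX.map_smul, ih,
            bose_al (hΦ i) hf hsep hX]
      exact (h2 Finset.univ).symm
    rw [h1, h0]
    have h3 := hX.map_smul 0 0
    rw [zero_smul, zero_smul] at h3
    rw [h3, inner_zero_left]
  refine ext_inner_right ℂ fun w => ?_
  rw [key, hz, inner_zero_right, inner_zero_left]

end Vale.Agent.P352.R2.H716

end
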