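import Vale.Agent.P352.R2.H716.Th
import Vale.Agent.P352.R2.H716.Riem

/-!
# Thin slabs
-/

set_option linter.all false

noncomputable section

open MeasureTheory Filter Topology Set
open scoped ComplexConjugate ContDiff

namespace Vale.Agent.P352.R2.H716

open GF (Ix V Fn Fld bas eta o bar pd sim)
open H755 H496 H15 H246

variable {D : Type*} [NormedAddCommGroup D] [InnerProductSpace ℂ D]
variable {Q Q' : GF.Theory D} {T : Ix → Ix → GF.Fld D} {J : Ix → GF.Fld D}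
  {A : (V → V) → D → D} {K : V → D → D} {Th : V → D → D}

/-- a slab of a test function -/
def sl (χ : ℝ → ℝ) (a : V) (ε : ℝ) (j : ℤ) (f : Fn) : Fn :=
  fun x => (χ (GF.mdot a x / ε - j) : ℂ) * f x

lemma slab_def (Q : GF.Theory D) (T : Ix → Ix → GF.Fld D) (Th : V → D → D) (χ : ℝ → ℝ) (a b : V)
    (m n : Ix) (ε : ℝ) (f : Fn) (v w : D) : slab Q T Th χ a b m n ε f v w =
      ∑ᶠ j : ℤ, cmt Q T Th a b m n (j * ε) (sl χ a ε j f) v w := rfl

lemma sl_test {χ : ℝ → ℝ} (hχ : Tst χ) (a : V) (ε : ℝ) (j : ℤ) {f : Fn} (hf : GF.IsTest f)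
    (hc : HasCompactSupport f) : GF.IsTest (sl χ a ε j f) ∧ HasCompactSupport (sl χ a ε j f) := by
  have h1 : In univ f := ⟨hf, hc, subset_univ _⟩
  have h0 : ContDiff ℝ ∞ fun x : V => χ (GF.mdot a x / ε - j) :=
    hχ.1.comp (((H846.contDiff_mdot a).div_const ε).sub contDiff_const)
  have h2 : ContDiff ℝ ∞ fun x : V => ((χ (GF.mdot a x / ε - j) : ℝ) : ℂ) :=
    Complex.ofRealCLM.contDiff.comp h0
  have h3 := H846.in_mul h1 h2
  exact ⟨h3.1, h3.2.1⟩

lemma test_zero : GF.IsTest (fun _ : V => (0 : ℂ)) := ⟨0, rfl⟩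

lemma fld_z {B : GF.Fld D} (hB : Q.fld B) (v : D) : B (fun _ => 0) v = 0 := by
  have h := Q.lin B (fun _ => 0) (fun _ => 0) 1 v hB test_zero test_zero
  simp only [mul_zero, add_zero, one_smul] at h
  exact left_eq_add.mp h

lemma test_sim {s : ℝ} (hs : 0 < s) {L : Ix → V} (hL : GF.IsLor L) {f : Fn} (hf : GF.IsTest f) :
    GF.IsTest fun x => f (sim s L 0 x) := by
  obtain ⟨F, rfl⟩ := exists_fl hf
  rw [fl_sim s hs hL 0 F]
  exact isTest_fl _

lemma hcs_sim {s : ℝ} (hs : 0 < s) {L : Ix → V} (hL : GF.IsLor L) {f : Fn}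
    (hf : HasCompactSupport f) : HasCompactSupport fun x => f (sim s L 0 x) := by
  have h := hf.comp_homeomorph (H755.simE s L hs hL).toContinuousLinearEquiv.toHomeomorph
  have e : (fun x => f (sim s L 0 x)) =
      f ∘ (H755.simE s L hs hL).toContinuousLinearEquiv.toHomeomorph := by
    funext x
    show f (sim s L 0 x) = f (H755.simE s L hs hL x)
    rw [H755.simE_apply]
  rw [e]
  exact h

lemma test_add {f g : Fn} (hf : GF.IsTest f) (hg : GF.IsTest g) :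
    GF.IsTest (fun x => f x + g x) := by
  obtain ⟨F, rfl⟩ := hf
  obtain ⟨G, rfl⟩ := hg
  exact ⟨F + G, rfl⟩

lemma fld_fsum {B : GF.Fld D} (hB : Q.fld B) {ι : Type*} (s : Finset ι) {f : ι → Fn}
    (hf : ∀ i, GF.IsTest (f i)) (v : D) : GF.IsTest (fun x => ∑ i ∈ s, f i x) ∧
    B (fun x => ∑ i ∈ s, f i x) v = ∑ i ∈ s, B (f i) v := by
  classical
  induction s using Finset.induction_on with
  | empty =>
    simp only [Finset.sum_empty]
    exact ⟨test_zero, fld_z hB v⟩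
  | insert i s hi ih =>
    simp only [Finset.sum_insert hi]
    refine ⟨test_add (hf i) ih.1, ?_⟩
    have h := Q.lin B (f i) (fun x => ∑ i ∈ s, f i x) 1 v hB (hf i) ih.1
    simp only [one_mul, one_smul] at h
    rw [h, ih.2]

section

variable (hT : Q.IsStress T) (hh : TrCh Q T Th) {a b : V} (ha : IsNull a) (hb : IsNull b)
  (hab : GF.mdot a b = 1)
include hT hh ha hb hab

lemma cmt_zero (m n : Ix) (u : ℝ) (v w : D) :
    cmt Q T Th a b m n u (fun _ => 0) v w = 0 := by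
  unfold cmt
  rw [fld_z (Q.bose_fld _ (hT.bose m n)), fld_z (Q.bose_fld _ (hT.bose m n)),
    tc_zero hT hh ha hb hab]
  simp

lemma sl_out {χ : ℝ → ℝ} {Kχ : ℝ} (hK : ∀ s, Kχ < |s| → χ s = 0) {f : Fn} {C : ℝ}
    (hf : ∀ x, f x ≠ 0 → |GF.mdot a x| ≤ C) {ε : ℝ} (hε : 0 < ε) {M : ℕ} (hM : Kχ + C / ε < M)
    {j : ℤ} (hj : j ∉ Finset.Icc (-(M : ℤ)) M) : sl χ a ε j f = fun _ => 0 := by
  funext x
  unfold sl
  by_cases h0 : f x = 0
  · rw [h0, mul_zero]
  · rw [hK _ ?_]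
    · simp
    · have h2 : |GF.mdot a x / ε| ≤ C / ε := by
        rw [abs_div, abs_of_pos hε]
        exact div_le_div_of_nonneg_right (hf x h0) hε.le
      have h3 : (M : ℝ) < |(j : ℝ)| := by
        by_contra hle
        push Not at hle
        have h4 := abs_le.1 hle
        refine hj (Finset.mem_Icc.2 ⟨by exact_mod_cast h4.1, by exact_mod_cast h4.2⟩)
      have h5 : |(j : ℝ)| - |GF.mdot a x / ε| ≤ |GF.mdot a x / ε - j| := by
        rw [abs_sub_comm]
        exact abs_sub_abs_le_abs_sub _ _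
      linarith

lemma slab_fin {χ : ℝ → ℝ} {Kχ : ℝ} (hK : ∀ s, Kχ < |s| → χ s = 0) {f : Fn} {C : ℝ}
    (hf : ∀ x, f x ≠ 0 → |GF.mdot a x| ≤ C) {ε : ℝ} (hε : 0 < ε) {M : ℕ} (hM : Kχ + C / ε < M)
    (m n : Ix) (v w : D) : slab Q T Th χ a b m n ε f v w =
      ∑ j ∈ Finset.Icc (-(M : ℤ)) M, cmt Q T Th a b m n (j * ε) (sl χ a ε j f) v w := by
  rw [slab_def]
  refine finsum_eq_sum_of_support_subset _ fun j hj => ?_
  by_contra hn
  refine hj ?_
  show cmt Q T Th a b m n (j * ε) (sl χ a ε j f) v w = 0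
  rw [sl_out hT hh ha hb hab hK hf hε hM hn, cmt_zero hT hh ha hb hab]

lemma slab_supp {χ : ℝ → ℝ} {Kχ : ℝ} (hK : ∀ s, Kχ < |s| → χ s = 0) {f : Fn} {C : ℝ}
    (hf : ∀ x, f x ≠ 0 → |GF.mdot a x| ≤ C) {ε : ℝ} (hε : 0 < ε)
    (m n : Ix) (v w : D) :
    (Function.support fun j : ℤ => cmt Q T Th a b m n (j * ε) (sl χ a ε j f) v w).Finite := by
  obtain ⟨M, hM⟩ := exists_nat_gt (Kχ + C / ε)
  refine (Finset.Icc (-(M : ℤ)) M).finite_toSet.subset fun j hj => ?_
  by_contra hn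
  refine hj ?_
  show cmt Q T Th a b m n (j * ε) (sl χ a ε j f) v w = 0
  rw [sl_out hT hh ha hb hab hK hf hε hM hn, cmt_zero hT hh ha hb hab]

end

lemma bound_mdot (a : V) {f : Fn} (hc : HasCompactSupport f) :
    ∃ C, ∀ x, f x ≠ 0 → |GF.mdot a x| ≤ C := by
  obtain ⟨C, hC⟩ := (hc.isCompact.image (f := fun x : V => GF.mdot a x)
    (H846.contDiff_mdot a).continuous).isBounded.subset_closedBall (0 : ℝ)
  refine ⟨C, fun x hx => ?_⟩
  have h1 := hC ⟨x, subset_tsupport _ (Function.mem_support.2 hx), rfl⟩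
  rwa [mem_closedBall_zero_iff, Real.norm_eq_abs] at h1

/-- the slabs of a partition of unity add up -/
lemma sl_part {χ : ℝ → ℝ} {Kχ : ℝ} (hK : ∀ s, Kχ < |s| → χ s = 0)
    (h1 : ∀ s, ∑ᶠ j : ℤ, χ (s - j) = 1) {a : V} {f : Fn} {C : ℝ}
    (hf : ∀ x, f x ≠ 0 → |GF.mdot a x| ≤ C) {ε : ℝ} (hε : 0 < ε) {M : ℕ} (hM : Kχ + C / ε < M) :
    (fun x => ∑ j ∈ Finset.Icc (-(M : ℤ)) M, sl χ a ε j f x) = f := by
  funext x
  unfold sl
  by_cases h0 : f x = 0
  · simp [h0]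
  · rw [← Finset.sum_mul]
    have h2 : ∑ j ∈ Finset.Icc (-(M : ℤ)) M, χ (GF.mdot a x / ε - j) = 1 := by
      rw [← h1 (GF.mdot a x / ε)]
      symm
      refine finsum_eq_sum_of_support_subset _ fun j hj => ?_
      by_contra hn
      refine hj ?_
      show χ (GF.mdot a x / ε - j) = 0
      refine hK _ ?_
      have h2 : |GF.mdot a x / ε| ≤ C / ε := by
        rw [abs_div, abs_of_pos hε]
        exact div_le_div_of_nonneg_right (hf x h0) hε.le
      have h3 : (M : ℝ) < |(j : ℝ)| := by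
        by_contra hle
        push Not at hle
        have h4 := abs_le.1 hle
        refine hn (Finset.mem_Icc.2 ⟨by exact_mod_cast h4.1, by exact_mod_cast h4.2⟩)
      have h5 : |(j : ℝ)| - |GF.mdot a x / ε| ≤ |GF.mdot a x / ε - j| := by
        rw [abs_sub_comm]
        exact abs_sub_abs_le_abs_sub _ _
      linarith
    have h3 : (∑ j ∈ Finset.Icc (-(M : ℤ)) M, ((χ (GF.mdot a x / ε - j) : ℝ) : ℂ)) = 1 := by
      exact_mod_cast h2
    rw [h3, one_mul]

/-! ### Covariance -/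

section

variable (hT : Q.IsStress T) (h : Rep Q A) (hh : TrCh Q T Th) {a b : V} (ha : IsNull a)
  (hb : IsNull b) (hab : GF.mdot a b = 1) {L : Ix → V} (hL : GF.IsLor L)
include hT h hh ha hb hab hL

lemma cmt_cov (m n : Ix) (u : ℝ) {f : Fn} (hf : GF.IsTest f) (v w : D) :
    cmt Q T Th (sim 1 L 0 a) (sim 1 L 0 b) m n u f (Q.U 1 L 0 v) (Q.U 1 L 0 w) =
      ∑ k, ∑ l, (L k m * L l n : ℂ) *
        cmt Q T Th a b k l u (fun x => f (sim 1 L 0 x)) v w := by
  have ha' := null_sim hL ha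
  have hb' := null_sim hL hb
  have hab' : GF.mdot (sim 1 L 0 a) (sim 1 L 0 b) = 1 := by rw [md_LL hL, hab]
  unfold cmt
  rw [hT.cov m n 1 L 0 f v one_pos hL hf, tc_sum hT hh ha' hb' hab', th_cov hT h hh ha hb hab hL,
    hT.cov m n 1 L 0 f _ one_pos hL hf]
  simp only [tc_sum hT hh ha' hb' hab', tc_smul hT hh ha' hb' hab', inner_sum, inner_smul_right,
    th_cov hT h hh ha hb hab hL, Q.U_inner 1 L 0 _ _ one_pos hL]
  rw [← Finset.sum_sub_distrib, Finset.mul_sum]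
  refine Finset.sum_congr rfl fun k _ => ?_
  rw [← Finset.sum_sub_distrib, Finset.mul_sum]
  refine Finset.sum_congr rfl fun l _ => ?_
  ring

lemma slab_cov {χ : ℝ → ℝ} (hχ : Tst χ) (m n : Ix) {ε : ℝ} (hε : 0 < ε) {f : Fn}
    (hf : GF.IsTest f) (hc : HasCompactSupport f) (v w : D) :
    slab Q T Th χ (sim 1 L 0 a) (sim 1 L 0 b) m n ε f (Q.U 1 L 0 v) (Q.U 1 L 0 w) =
      ∑ k, ∑ l, (L k m * L l n : ℂ) *
        slab Q T Th χ a b k l ε (fun x => f (sim 1 L 0 x)) v w := by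
  obtain ⟨Kχ, -, -, -, hK, -⟩ := tst_bounds hχ
  have hc' : HasCompactSupport fun x => f (sim 1 L 0 x) := hcs_sim one_pos hL hc
  obtain ⟨C, hC⟩ := bound_mdot a hc'
  rw [slab_def]
  have e1 : ∀ j : ℤ, cmt Q T Th (sim 1 L 0 a) (sim 1 L 0 b) m n (j * ε)
      (sl χ (sim 1 L 0 a) ε j f) (Q.U 1 L 0 v) (Q.U 1 L 0 w) = ∑ k, ∑ l, (L k m * L l n : ℂ) *
        cmt Q T Th a b k l (j * ε) (sl χ a ε j fun x => f (sim 1 L 0 x)) v w := by
    intro j
    rw [cmt_cov hT h hh ha hb hab hL m n _ (sl_test hχ _ ε j hf hc).1]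
    have e2 : (fun x => sl χ (sim 1 L 0 a) ε j f (sim 1 L 0 x)) =
        sl χ a ε j fun x => f (sim 1 L 0 x) := by
      funext x
      unfold sl
      rw [md_LL hL]
    rw [e2]
  simp only [e1]
  rw [finsum_sum_comm]
  · refine Finset.sum_congr rfl fun k _ => ?_
    rw [finsum_sum_comm]
    · refine Finset.sum_congr rfl fun l _ => ?_
      rw [slab_def, mul_finsum]
    · intro l _
      exact (slab_supp hT hh ha hb hab hK hC hε k l v w).subset fun j hj => by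
        intro h0
        exact hj (by simp only [h0, mul_zero])
  · intro k _
    refine ((Set.finite_iUnion fun l : Ix => slab_supp hT hh ha hb hab hK hC hε k l v w)).subset
      fun j hj => ?_
    by_contra hn
    simp only [Set.mem_iUnion, not_exists, Function.mem_support, not_not] at hn
    refine hj (Finset.sum_eq_zero fun l _ => ?_)
    rw [hn l, mul_zero]

end

section

variable (hT : Q.IsStress T) (hh : TrCh Q T Th) {a b : V} (ha : IsNull a) (hb : IsNull b)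
  (hab : GF.mdot a b = 1) {r : ℝ} (hr : 0 < r)
include hT hh ha hb hab hr

lemma cmt_scale (m n : Ix) (u : ℝ) {f : Fn} (hf : GF.IsTest f) (v w : D) :
    cmt Q T Th (r • a) (r⁻¹ • b) m n u f v w =
      ((r⁻¹ : ℝ) : ℂ) * cmt Q T Th a b m n (u / r) f v w := by
  obtain ⟨F, rfl⟩ := exists_fl hf
  unfold cmt
  rw [th_scale hh ha hb hab hr, th_scale hh ha hb hab hr,
    Vale.Agent.P352.fld_smul (Q.bose_fld _ (hT.bose m n)) F, inner_smul_right, inner_smul_right]
  ring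

lemma slab_scale {χ : ℝ → ℝ} (hχ : Tst χ) (m n : Ix) (ε : ℝ) {f : Fn}
    (hf : GF.IsTest f) (hc : HasCompactSupport f) (v w : D) :
    slab Q T Th χ (r • a) (r⁻¹ • b) m n ε f v w =
      ((r⁻¹ : ℝ) : ℂ) * slab Q T Th χ a b m n (ε / r) f v w := by
  rw [slab_def, slab_def, mul_finsum]
  refine finsum_congr fun j => ?_
  rw [cmt_scale hT hh ha hb hab hr m n _ (sl_test hχ _ ε j hf hc).1]
  have e1 : sl χ (r • a) ε j f = sl χ a (ε / r) j f := by
    funext x
    unfold sl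
    rw [md_smul_l]
    congr 4
    field_simp
  rw [e1, mul_div_assoc]

end

/-! ### The commutator at a point -/

section

variable {χ : ℝ → ℝ} {X : V → Ix → Ix → GF.Fld D}

/-- Lorentz covariance of the commutator -/
theorem X_cov (hT : Q.IsStress T) (h : Rep Q A) (hh : TrCh Q T Th) (hχ : Tst χ)
    (hX : ∀ a, IsNull a → PtCom Q T Th χ a (X a)) {a : V} (ha : IsNull a) {L : Ix → V}
    (hL : GF.IsLor L) (m n : Ix) {f : Fn} (hf : GF.IsTest f) (hc : HasCompactSupport f) (v : D) :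
    X (sim 1 L 0 a) m n f (Q.U 1 L 0 v) =
      ∑ k, ∑ l, (L k m * L l n : ℂ) • Q.U 1 L 0 (X a k l (fun x => f (sim 1 L 0 x)) v) := by
  obtain ⟨b, hb, hab⟩ := H846.exists_dual ha
  have ha' := null_sim hL ha
  have hb' := null_sim hL hb
  have hab' : GF.mdot (sim 1 L 0 a) (sim 1 L 0 b) = 1 := by rw [md_LL hL, hab]
  have hc' : HasCompactSupport fun x => f (sim 1 L 0 x) := hcs_sim one_pos hL hc
  have hf' : GF.IsTest fun x => f (sim 1 L 0 x) := test_sim one_pos hL hf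
  refine ext_inner_left ℂ fun z => ?_
  have hz := U_linv' h one_pos hL z
  set w := Q.U 1⁻¹ (linv L) 0 z with hw
  rw [← hz]
  have l1 := (hX _ ha').loc (sim 1 L 0 b) f m n (Q.U 1 L 0 v) (Q.U 1 L 0 w) hb' hab' hf hc
  have l2 : Tendsto (fun ε => ∑ k, ∑ l, (L k m * L l n : ℂ) *
      slab Q T Th χ a b k l ε (fun x => f (sim 1 L 0 x)) v w) (𝓝[>] 0)
      (𝓝 (∑ k, ∑ l, (L k m * L l n : ℂ) *
        inner ℂ w (X a k l (fun x => f (sim 1 L 0 x)) v))) :=
    tendsto_finset_sum _ fun k _ => tendsto_finset_sum _ fun l _ =>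
      ((hX a ha).loc b _ k l v w hb hab hf' hc').const_mul _
  have l3 := l2.congr' (f₂ := fun ε => slab Q T Th χ (sim 1 L 0 a) (sim 1 L 0 b) m n ε f
      (Q.U 1 L 0 v) (Q.U 1 L 0 w)) (by
    filter_upwards [self_mem_nhdsWithin] with ε hε
    exact (slab_cov hT h hh ha hb hab hL hχ m n hε hf hc v w).symm)
  rw [tendsto_nhds_unique l1 l3]
  simp only [inner_sum, inner_smul_right, Q.U_inner 1 L 0 _ _ one_pos hL]

/-- homogeneity of the commutator -/
theorem X_scale (hT : Q.IsStress T) (hh : TrCh Q T Th) (hχ : Tst χ)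
    (hX : ∀ a, IsNull a → PtCom Q T Th χ a (X a)) {a : V} (ha : IsNull a) {r : ℝ} (hr : 0 < r)
    (m n : Ix) {f : Fn} (hf : GF.IsTest f) (hc : HasCompactSupport f) (v : D) :
    X (r • a) m n f v = ((r⁻¹ : ℝ) : ℂ) • X a m n f v := by
  obtain ⟨b, hb, hab⟩ := H846.exists_dual ha
  have ha' : IsNull (r • a) := ⟨by rw [md_smul, md_smul_l, ha.1]; ring, mul_pos hr ha.2⟩
  have hb' : IsNull (r⁻¹ • b) := ⟨by rw [md_smul, md_smul_l, hb.1]; ring,
    mul_pos (inv_pos.2 hr) hb.2⟩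
  have hab' : GF.mdot (r • a) (r⁻¹ • b) = 1 := by
    rw [md_smul, md_smul_l, hab]; field_simp
  refine ext_inner_left ℂ fun w => ?_
  have l1 := (hX _ ha').loc (r⁻¹ • b) f m n v w hb' hab' hf hc
  have hs : Tendsto (fun ε : ℝ => ε / r) (𝓝[>] 0) (𝓝[>] 0) := by
    refine tendsto_nhdsWithin_iff.2 ⟨?_, ?_⟩
    · have h1 : Tendsto (fun ε : ℝ => ε / r) (𝓝 0) (𝓝 (0 / r)) :=
        (continuous_id.div_const r).tendsto 0
      rw [zero_div] at h1
      exact h1.mono_left nhdsWithin_le_nhds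
    · filter_upwards [self_mem_nhdsWithin] with ε hε
      exact div_pos hε hr
  have l2 := (((hX a ha).loc b f m n v w hb hab hf hc).comp hs).const_mul ((r⁻¹ : ℝ) : ℂ)
  have l3 := l2.congr (f₂ := fun ε => slab Q T Th χ (r • a) (r⁻¹ • b) m n ε f v w)
    fun ε => (slab_scale hT hh ha hb hab hr hχ m n ε hf hc v w).symm
  rw [tendsto_nhds_unique l1 l3, inner_smul_right]

end

end Vale.Agent.P352.R2.H716

end
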