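import Vale.Agent.P352.H246.SdLoc
import Vale.Agent.P352.H755.R7d
import Vale.Agent.P352.H15.Lor
import Vale.Agent.P352.R2.H716.FinDefs

/-!
# The integrals of the trace over null hyperplanes as operators
-/

set_option linter.all false

noncomputable section

open MeasureTheory Filter Topology Set
open scoped ComplexConjugate ContDiff

namespace Vale.Agent.P352.R2.H716

open GF (Ix V Fn Fld bas eta o bar pd sim)
open H755 H496 H15 H246
open H746 (TG tg_lim kh)

variable {D : Type*} [NormedAddCommGroup D] [InnerProductSpace ℂ D]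
variable {Q : GF.Theory D} {T : Ix → Ix → GF.Fld D} {J : Ix → GF.Fld D}
  {A : (V → V) → D → D} {K : V → D → D} {Th : V → D → D}

/-- matrix elements of the trace with real functions are hermitian -/
lemma tt_conj (hT : Q.IsStress T) {p : V → ℝ} (hp : Tst p) (v w : D) :
    inner ℂ w (tt T p v) = conj (inner ℂ v (tt T p w)) := by
  unfold tt GF.tr
  rw [inner_sum, inner_sum, map_sum]
  refine Finset.sum_congr rfl fun m _ => ?_
  rw [inner_smul_right, inner_smul_right, map_mul, Complex.conj_ofReal]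
  congr 1
  have h := hT.herm m m (fun x => (p x : ℂ)) v w hp.isTest
  have e : bar (fun x => (p x : ℂ)) = fun x => (p x : ℂ) := by
    funext x; simp [bar]
  rw [e] at h
  rw [← h, inner_conj_symm]

section

variable (hT : Q.IsStress T) (hh : TrCh Q T Th) {a b : V} (ha : IsNull a) (hb : IsNull b)
  (hab : GF.mdot a b = 1)
include hT hh ha hb hab

lemma th_conj (v w : D) (u : ℝ) :
    inner ℂ w (tc Q Th a b u v) = conj (inner ℂ v (tc Q Th a b u w)) := by
  obtain ⟨κ, hκ, hκ1⟩ := exists_kp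
  have key : (fun u => inner ℂ w (tc Q Th a b u v)) =
      fun u => conj (inner ℂ v (tc Q Th a b u w)) := by
    refine fun_uniqueR (hh.cont a b v w ha hb hab)
      (Complex.continuous_conj.comp (hh.cont a b w v ha hb hab)) fun g hg => ?_
    have hA : Adm a b κ g := ⟨ha, hb, hab, hκ, hκ1, hg⟩
    have l1 := hh.lim a b κ 0 g v w hA
    have l2 := (Complex.continuous_conj.tendsto _).comp (hh.lim a b κ 0 g w v hA)
    have e : ∫ u, (g u : ℂ) * conj (inner ℂ v (tc Q Th a b u w)) =
        conj (∫ u, (g u : ℂ) * inner ℂ v (tc Q Th a b u w)) := by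
      rw [← integral_conj]
      refine integral_congr_ae (Eventually.of_forall fun u => ?_)
      simp only [map_mul, Complex.conj_ofReal]
    rw [e]
    refine tendsto_nhds_unique l1 (l2.congr' ?_)
    filter_upwards [eventually_ge_atTop (1 : ℝ)] with R hR
    exact (tt_conj hT (H755.ctf_tst hA 0 hR) v w).symm
  exact congrFun key u

lemma th_symm (v w : D) (u : ℝ) :
    inner ℂ (tc Q Th a b u v) w = inner ℂ v (tc Q Th a b u w) := by
  rw [← inner_conj_symm, th_conj hT hh ha hb hab v w u, Complex.conj_conj]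

/-- the operator of the null hyperplane `a·x = u` as a linear map -/
def tcL (u : ℝ) : D →ₗ[ℂ] D where
  toFun := tc Q Th a b u
  map_add' v w := by
    refine ext_inner_left ℂ fun z => ?_
    rw [← th_symm hT hh ha hb hab, inner_add_right, inner_add_right, th_symm hT hh ha hb hab,
      th_symm hT hh ha hb hab]
  map_smul' c v := by
    refine ext_inner_left ℂ fun z => ?_
    rw [← th_symm hT hh ha hb hab, inner_smul_right, th_symm hT hh ha hb hab, RingHom.id_apply,
      inner_smul_right]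

lemma tcL_apply (u : ℝ) (v : D) : tcL hT hh ha hb hab u v = tc Q Th a b u v := rfl

lemma tc_zero (u : ℝ) : tc Q Th a b u 0 = 0 := (tcL hT hh ha hb hab u).map_zero

lemma tc_sum {ι : Type*} (s : Finset ι) (g : ι → D) (u : ℝ) :
    tc Q Th a b u (∑ i ∈ s, g i) = ∑ i ∈ s, tc Q Th a b u (g i) :=
  map_sum (tcL hT hh ha hb hab u) g s

lemma tc_smul (c : ℂ) (v : D) (u : ℝ) : tc Q Th a b u (c • v) = c • tc Q Th a b u v :=
  (tcL hT hh ha hb hab u).map_smul c v

/-- the vacuum is annihilated -/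
lemma th_vac (hJ : IsVirial Q T J) (h : NullCharges Q T J A K) (u : ℝ) :
    tc Q Th a b u Q.vac = 0 := by
  obtain ⟨κ, hκ, hκ1⟩ := exists_kp
  refine ext_inner_left ℂ fun w => ?_
  rw [inner_zero_right]
  have key : (fun u => inner ℂ w (tc Q Th a b u Q.vac)) = fun _ => (0 : ℂ) := by
    refine fun_uniqueR (hh.cont a b Q.vac w ha hb hab) continuous_const fun g hg => ?_
    have hA : Adm a b κ g := ⟨ha, hb, hab, hκ, hκ1, hg⟩
    have l1 := hh.lim a b κ 0 g Q.vac w hA
    have l2 := tg_lim hT hJ h hA Q.vac w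
    have h3 := tendsto_nhds_unique l1 l2
    rw [h3]
    simp only [kh_vac hT h ha, mul_zero, integral_zero, neg_zero]
  exact congrFun key u

end

/-- Lorentz covariance of the trace -/
lemma tt_cov (hT : Q.IsStress T) {p : V → ℝ} (hp : Tst p) {L : Ix → V} (hL : GF.IsLor L)
    (v w : D) : inner ℂ (Q.U 1 L 0 w) (tt T p (Q.U 1 L 0 v)) =
      inner ℂ w (tt T (fun x => p (sim 1 L 0 x)) v) := by
  unfold tt GF.tr
  rw [inner_sum, inner_sum]
  simp only [inner_smul_right]
  have h1 : ∀ m, inner ℂ (Q.U 1 L 0 w) (T m m (fun x => (p x : ℂ)) (Q.U 1 L 0 v)) =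
      ∑ k, ∑ l, ((L k m : ℂ) * L l m) * inner ℂ w (T k l (fun x => (p (sim 1 L 0 x) : ℂ)) v) := by
    intro m
    rw [hT.cov m m 1 L 0 _ v one_pos hL hp.isTest, inner_sum]
    refine Finset.sum_congr rfl fun k _ => ?_
    rw [inner_sum]
    refine Finset.sum_congr rfl fun l _ => ?_
    rw [inner_smul_right, Q.U_inner 1 L 0 _ _ one_pos hL]
  simp only [h1, Finset.mul_sum]
  rw [Finset.sum_comm]
  refine Finset.sum_congr rfl fun k _ => ?_
  rw [Finset.sum_comm]
  have h2 : ∀ l, ∑ m, (eta m : ℂ) * ((L k m : ℂ) * L l m *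
      inner ℂ w (T k l (fun x => (p (sim 1 L 0 x) : ℂ)) v)) =
      ((bas k (eta k) l : ℝ) : ℂ) * inner ℂ w (T k l (fun x => (p (sim 1 L 0 x) : ℂ)) v) := by
    intro l
    have h3 := hL.1 k l
    rw [← h3]
    unfold GF.mdot
    push_cast
    rw [Finset.sum_mul]
    exact Finset.sum_congr rfl fun m _ => by ring
  simp only [h2]
  rw [Finset.sum_eq_single k]
  · simp [bas]
  · intro l _ hl
    simp [bas, hl]
  · intro hk
    exact absurd (Finset.mem_univ k) hk

lemma null_sim {L : Ix → V} (hL : GF.IsLor L) {a : V} (ha : IsNull a) :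
    IsNull (sim 1 L 0 a) := isNull_lor hL ha

/-- Lorentz covariance -/
theorem th_cov (hT : Q.IsStress T) (h : Rep Q A) (hh : TrCh Q T Th) {a b : V} (ha : IsNull a)
    (hb : IsNull b) (hab : GF.mdot a b = 1) {L : Ix → V} (hL : GF.IsLor L) (u : ℝ) (v : D) :
    tc Q Th (sim 1 L 0 a) (sim 1 L 0 b) u (Q.U 1 L 0 v) = Q.U 1 L 0 (tc Q Th a b u v) := by
  obtain ⟨κ', hκ', hκ1'⟩ := exists_kp
  have ha' := null_sim hL ha
  have hb' := null_sim hL hb
  have hab' : GF.mdot (sim 1 L 0 a) (sim 1 L 0 b) = 1 := by rw [md_LL hL, hab]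
  set κ : V → ℝ := fun x => κ' (sim 1 L 0 x) with hκdef
  have hκ : Tst κ := tst_sim hκ' one_pos hL
  have hκ1 : ∀ᶠ x in 𝓝 (0 : V), κ x = 1 := by
    have hc : Tendsto (fun x : V => sim 1 L 0 x) (𝓝 0) (𝓝 0) := by
      have h1 : Continuous fun x : V => simE 1 L one_pos hL x :=
        (simE 1 L one_pos hL).toContinuousLinearEquiv.continuous
      have h2 := h1.tendsto 0
      have e : sim 1 L 0 (0 : V) = 0 := by funext n; simp [sim]
      simpa [H755.simE_apply, e] using h2
    exact hc.eventually hκ1'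
  have hctf : ∀ ψ R x, ctf (sim 1 L 0 a) (sim 1 L 0 b) κ' 0 ψ R (sim 1 L 0 x) =
      ctf a b κ 0 ψ R x := by
    intro ψ R x
    unfold ctf cut
    rw [sub_zero, sub_zero, md_LL hL, md_LL hL, hκdef]
    simp only
    congr 2
    rw [simL_add, simL_smul, simL_smul, simL_sub, simL_sub, simL_smul, simL_smul]
  have main : ∀ w, inner ℂ (Q.U 1 L 0 w)
      (tc Q Th (sim 1 L 0 a) (sim 1 L 0 b) u (Q.U 1 L 0 v)) = inner ℂ w (tc Q Th a b u v) := by
    intro w
    have key : (fun u => inner ℂ (Q.U 1 L 0 w)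
        (tc Q Th (sim 1 L 0 a) (sim 1 L 0 b) u (Q.U 1 L 0 v))) =
        fun u => inner ℂ w (tc Q Th a b u v) := by
      refine fun_uniqueR (hh.cont _ _ _ _ ha' hb' hab') (hh.cont a b v w ha hb hab) fun g hg => ?_
      have l1 := hh.lim _ _ κ' 0 g (Q.U 1 L 0 v) (Q.U 1 L 0 w) ⟨ha', hb', hab', hκ', hκ1', hg⟩
      have hA : Adm a b κ g := ⟨ha, hb, hab, hκ, hκ1, hg⟩
      have l2 := hh.lim a b κ 0 g v w hA
      refine tendsto_nhds_unique l1 (l2.congr' ?_)
      filter_upwards [eventually_ge_atTop (1 : ℝ)] with R hR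
      have h1 := tt_cov hT (H755.ctf_tst (κ := κ') ⟨ha', hb', hab', hκ', hκ1', hg⟩ 0 hR) hL v w
      simp only [hctf] at h1
      exact h1.symm
    exact congrFun key u
  refine ext_inner_left ℂ fun z => ?_
  have hz := U_linv' h one_pos hL z
  rw [← hz, main, Q.U_inner 1 L 0 _ _ one_pos hL]

/-- homogeneity -/
theorem th_scale (hh : TrCh Q T Th) {a b : V} (ha : IsNull a) (hb : IsNull b)
    (hab : GF.mdot a b = 1) {r : ℝ} (hr : 0 < r) (u : ℝ) (v : D) :
    tc Q Th (r • a) (r⁻¹ • b) u v = ((r⁻¹ : ℝ) : ℂ) • tc Q Th a b (u / r) v := by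
  obtain ⟨κ, hκ, hκ1⟩ := exists_kp
  have ha' : IsNull (r • a) := ⟨by rw [md_smul, md_smul_l, ha.1]; ring, mul_pos hr ha.2⟩
  have hb' : IsNull (r⁻¹ • b) := ⟨by rw [md_smul, md_smul_l, hb.1]; ring,
    mul_pos (inv_pos.2 hr) hb.2⟩
  have hab' : GF.mdot (r • a) (r⁻¹ • b) = 1 := by
    rw [md_smul, md_smul_l, hab]; field_simp
  refine ext_inner_left ℂ fun w => ?_
  rw [inner_smul_right]
  have key : (fun u => inner ℂ w (tc Q Th (r • a) (r⁻¹ • b) u v)) =
      fun u => ((r⁻¹ : ℝ) : ℂ) * inner ℂ w (tc Q Th a b (u / r) v) := by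
    refine fun_uniqueR (hh.cont _ _ _ _ ha' hb' hab') (continuous_const.mul
      ((hh.cont a b v w ha hb hab).comp (continuous_id.div_const r))) fun g hg => ?_
    have hg' : Tst fun u => g (r * u) := ⟨hg.1.comp (contDiff_const.mul contDiff_id),
      hg.2.comp_homeomorph (Homeomorph.mulLeft₀ r hr.ne')⟩
    have l1 := hh.lim _ _ κ 0 g v w ⟨ha', hb', hab', hκ, hκ1, hg⟩
    have l2 := hh.lim a b κ 0 (fun u => g (r * u)) v w ⟨ha, hb, hab, hκ, hκ1, hg'⟩
    have e : ∀ R x, ctf (r • a) (r⁻¹ • b) κ 0 g R x = ctf a b κ 0 (fun u => g (r * u)) R x := by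
      intro R x
      unfold ctf cut
      rw [sub_zero, md_smul_l, md_smul_l]
      congr 2
      funext k
      simp only [Pi.add_apply, Pi.smul_apply, Pi.sub_apply, smul_eq_mul]
      field_simp
    have h1 := tendsto_nhds_unique l1 (l2.congr fun R => by simp only [e])
    rw [h1]
    have h5 := Measure.integral_comp_mul_left
      (fun u => (g u : ℂ) * inner ℂ w (tc Q Th a b (u / r) v)) r
    have h6 : ∀ u, r * u / r = u := by intro u; field_simp
    simp only [h6] at h5
    rw [h5, abs_of_pos (inv_pos.2 hr), Complex.real_smul]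
    simp_rw [mul_left_comm _ (((r⁻¹ : ℝ)) : ℂ) _]
    rw [integral_const_mul]
  exact congrFun key u

end Vale.Agent.P352.R2.H716

end
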